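import Vale.Agent.P224.SH.Yser
import Mathlib.Analysis.Real.Pi.Bounds

/-!
Polynomial bounds of the coefficient function `y` in dimension 14.
-/

namespace Vale.Agent.P224.SH

open MeasureTheory Set Filter Function Real Vale.Agent.P224.SM2
open scoped Topology

lemma WI_six_six : WI 6 6 = 5 * π / 2048 := by
  have h0 : WI 0 0 = π / 2 := by simp [WI]
  have h1 := WI_rec1 0 0
  have h2 := WI_rec1 2 0
  have h2' := WI_rec1 4 0
  have h3 := WI_rec2 6 0
  have h4 := WI_rec2 6 2
  have h5 := WI_rec2 6 4
  push_cast at h1 h2 h2' h3 h4 h5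
  norm_num at h1 h2 h2' h3 h4 h5
  linarith

lemma II_seven_zero : II 7 0 = 8 / 693 := by
  have h := II_zero_WI 5
  norm_num at h
  have h0 : WI 1 0 = 1 := by simp [WI]
  have h1 := WI_rec1 1 0
  have h1' := WI_rec1 3 0
  have h2 := WI_rec2 5 0
  have h3 := WI_rec2 5 2
  have h4 := WI_rec2 5 4
  push_cast at h1 h1' h2 h3 h4
  norm_num at h1 h1' h2 h3 h4
  rw [h]
  linarith

/-- a polynomial bound -/
def YL14 : List ℤ := [107382, 627796, 1675488, 1254652, 940064]

/-- the series coefficients -/
def QYL14 : List ℤ := [132881058, 56059196, 28548664, 16237052, 9963645, 6469450, 4389983,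
    3086706, 2235003, 1658791]

/-- lower bound of `y` -/
theorem y14_low {T : ℝ} (hT : T ∈ Icc (0 : ℝ) 1) :
    (1 - T) ^ 6 * (pv YL14 T / 100000) ≤ yF 7 (3003 / 32) T := by
  have h := yF_low (a := 7) (by norm_num) 6 (by norm_num) 69300000000 3003 32 100000 531524232 QYL14 YL14
    (by norm_num) (by norm_num) (by norm_num) (by norm_num)
    (by
      rw [WI_six_six]
      have := Real.pi_gt_d6
      push_cast
      linarith)
    (by decide +kernel) (N := 2) (by norm_num) (by decide +kernel) hT
  push_cast at h
  exact h

/-- a polynomial bound -/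
def YU14 : List ℤ := [108876, 639064, 1623174, 1321864, 914027]

/-- the series coefficients -/
def QYU14 : List ℤ := [132881101, 56059215, 28548675, 16237059, 9963650, 6469454, 4389987,
    3086710, 2235007, 1658795]

/-- upper bound of `y` -/
theorem y14_up {T : ℝ} (hT : T ∈ Icc (0 : ℝ) 1) :
    yF 7 (3003 / 32) T ≤ (1 - T) ^ 6 * (pv YU14 T / 100000) := by
  have h := yF_up (a := 7) (by norm_num) 6 (by norm_num) 69300000000 3003 32 100000 531524402 800000000 QYU14 YU14
    (by norm_num) (by norm_num) (by norm_num) (by norm_num)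
    (by
      rw [WI_six_six]
      have := Real.pi_lt_d6
      push_cast
      linarith)
    (by decide +kernel)
    (by
      rw [II_seven_zero]
      push_cast
      norm_num)
    (N := 2) (by norm_num) (by decide +kernel) hT
  push_cast at h
  exact h

/-- a polynomial bound -/
def YV14 : List ℤ := [1085632, 6429552, 16162605, 12747100, 11036295, -2386266, 995247]

/-- the series coefficients -/
def QYV14 : List ℤ := [132881101, 56059215, 28548675, 16237059, 9963650, 6469454, 4389987,
    3086710, 2235007, 1658795]

/-- upper bound of `y` -/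
theorem y14_up0 {T : ℝ} (hT : T ∈ Icc (0 : ℝ) 1) :
    yF 7 (3003 / 32) T ≤ (1 - T) ^ 6 * (pv YV14 T / 1000000) := by
  have h := yF_up (a := 7) (by norm_num) 6 (by norm_num) 69300000000 3003 32 1000000 531524402 800000000 QYV14 YV14
    (by norm_num) (by norm_num) (by norm_num) (by norm_num)
    (by
      rw [WI_six_six]
      have := Real.pi_lt_d6
      push_cast
      linarith)
    (by decide +kernel)
    (by
      rw [II_seven_zero]
      push_cast
      norm_num)
    (N := 3) (by norm_num) (by decide +kernel) hT
  push_cast at h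
  exact h

end Vale.Agent.P224.SH
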