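import Vale.Agent.P224.SH.HD

/-!
The static function in dimension ten.
-/

namespace Vale.Agent.P224.SH

/-- the numbers of the static function in dimension ten -/
def HD10 : HD where
  D := 10000
  KA := 10
  KB := 12
  A := [[0, 0, 1756, -2331, -24339, 97556, -164937, 155124, -87349, 30504, -6891, 907],
    [0, 0, 881, 4574, -39232, 96230, -114430, 70634, -19864, 722, 485],
    [0, 0, -2317, 18052, -49629, 62351, -33059, -762, 7349, -1985],
    [0, 0, 9842, -44739, 82926, -78929, 38991, -8256, 165],
    [0, 0, -8579, 43228, -81035, 70638, -28188, 3936],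
    [0, 0, 630, -4626, 12429, -13055, 4622],
    [0, 0, 11635, -33510, 33171, -11185],
    [0, 0, -12382, 38061, -38046, 12681],
    [0, 0, 6224, -18129, 18039, -5984],
    [0, 0, -1109, 3338, -3405, 1233, -57]]
  B0 := [[0, -13953, 100476, -333279, 691674, -1019763, 1113228, -878601, 466794, -147204, 20628],
    [0, 34453, -247994, 799414, -1520439, 1879065, -1549728, 831164, -263359, 37424],
    [0, -21951, 182856, -595911, 1061393, -1175297, 834774, -353153, 67289],
    [0, 1657, -14457, 84384, -201026, 216489, -105093, 18046],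
    [0, 3419, -10129, 30236, -54741, 42195, -10980],
    [0, 10865, -33104, 47217, -35898, 10920],
    [0, -4464, 20334, -22050, 6626],
    [0, 10, 7677, -9168, 2701],
    [0, 16899, -46047, 47277, -16287],
    [0, -12204, 45432, -47274, 16041],
    [0, 9475, -21342, 21471, -7217],
    [0, 1198, 3975, -3999, 1332]]
  B1 := [[0, 0, 17026, -103556, 243661, -240746, -18545, 279424, -276509, 119374, -20129],
    [0, 0, -41360, 289224, -866784, 1443160, -1441680, 864120, -287744, 41064],
    [0, 0, 36522, -231662, 610480, -855740, 673130, -281782, 49052],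
    [0, 0, -9212, 37944, -59656, 43424, -13596, 1096],
    [0, 0, 14424, -61796, 98844, -69996, 18524],
    [0, 0, 4461, -14893, 16403, -5971],
    [0, 0, 98, -1040, 1234, -292],
    [0, 0, 3821, -7726, 3794],
    [0, 0, 4149, -6734, 2524],
    [0, 0, -3180, 7966, -4223],
    [0, 0, 3054, -5114, 2560],
    [0, 0, -625, 1373, -867, 119]]
  B2 := [[0, 0, 0, -8072, 213062, -1130065, 2758120, -3731755, 2941982, -1313927, 291860, -21205],
    [0, 0, 0, 62257, -326543, 722726, -894480, 702525, -377207, 134588, -23866],
    [0, 0, 0, -9211, 116778, -411216, 661304, -546231, 224790, -36214],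
    [0, 0, 0, 28178, -89966, 93713, -23123, -15919, 7117],
    [0, 0, 0, 5056, 3950, -36286, 40498, -13218],
    [0, 0, 0, 7575, -12199, 3349, 1275],
    [0, 0, 0, 7048, -10200, 3431],
    [0, 0, 0, 4128, -4062, 762],
    [0, 0, 0, -906, 4446, -2467],
    [0, 0, 0, 2143, -3306, 1658],
    [0, 0, 0, -673, 1709, -1404, 368],
    [0, 0, 0, 147, -473, 511, -185]]

end Vale.Agent.P224.SH
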