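import Vale.Agent.P224.SH.HD

/-!
The static function in dimension twelve.
-/

namespace Vale.Agent.P224.SH

/-- the numbers of the static function in dimension twelve -/
def HD12 : HD where
  D := 10000
  KA := 12
  KB := 14
  A := [[0, 0, 70, 7740, -47801, 112007, -110481, -5285, 119525, -117579, 50143, -8339],
    [0, 0, 1481, -888, -24943, 85370, -125295, 94484, -34057, 3018, 830],
    [0, 0, 2970, -14254, 29249, -36385, 34180, -25280, 12049, -2529],
    [0, 0, -2511, 21324, -65576, 99284, -79971, 32840, -5390],
    [0, 0, 3076, -10660, 13575, -7525, 1585, -51],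
    [0, 0, -1226, 7568, -14627, 11454, -3169],
    [0, 0, 785, -903, -308, 426],
    [0, 0, 669, -708, 87],
    [0, 0, 247, 156, -234],
    [0, 0, -19, 420, -185],
    [0, 0, 229, -250, 103],
    [0, 0, -47, 89, -56, 14]]
  B0 := [[0, -27049, 218092, -828255, 2019735, -3586443, 4823259, -4831827, 3441285, -1626240,
      453853, -56410],
    [0, 64287, -519651, 1918218, -4281495, 6406686, -6673227, 4818666, -2307753, 659055, -84786],
    [0, -45261, 384696, -1405656, 3002327, -4222885, 4051646, -2567366, 962851, -160352],
    [0, 34680, -201183, 527325, -781630, 663130, -283395, 31633, 9440],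
    [0, -51044, 282366, -608604, 652085, -362631, 97857, -10029],
    [0, 41255, -193843, 386558, -402375, 214173, -45768],
    [0, 1404, 7293, -18948, 12102, -1851],
    [0, -8148, 32988, -37542, 12944],
    [0, -9202, 33819, -34455, 10621],
    [0, 53128, -150366, 146841, -48189],
    [0, -54101, 162741, -156369, 49495],
    [0, 30744, -77757, 70191, -21001],
    [0, -3000, 13242, -10371, 2478],
    [0, 2475, 456, -873, 421]]
  B1 := [[0, 0, 48477, -376913, 1261818, -2351230, 2608228, -1660512, 455798, 92062, -96945, 19217],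
    [0, 0, -108117, 871770, -3075985, 6203292, -7820445, 6311162, -3183855, 918000, -115822],
    [0, 0, 74196, -530906, 1627320, -2769870, 2827540, -1731126, 588576, -85730],
    [0, 0, -26185, 138788, -301165, 340480, -209555, 65500, -7863],
    [0, 0, 23953, -127303, 269682, -284758, 149917, -31491],
    [0, 0, 7646, -33900, 55824, -40532, 10962],
    [0, 0, 3790, -12624, 13878, -5044],
    [0, 0, 1261, -4429, 4718, -1550],
    [0, 0, 3337, -6918, 3521],
    [0, 0, -1230, 3270, -2124],
    [0, 0, 11637, -21482, 10070],
    [0, 0, -11284, 23676, -11845],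
    [0, 0, 7123, -13276, 6562],
    [0, 0, -1583, 3321, -1914, 176]]
  B2 := [[0, 0, 0, -46431, 579105, -2634862, 6129298, -8023260, 5709956, -1502690, -669858, 577547,
      -118805],
    [0, 0, 0, 118502, -744370, 2066989, -3406276, 3784355, -2997602, 1658315, -569224, 89311],
    [0, 0, 0, 6063, 78987, -520183, 1203905, -1405735, 883477, -280817, 34303],
    [0, 0, 0, -23454, 232508, -772459, 1233836, -1040024, 446560, -76967],
    [0, 0, 0, 28831, -86947, 74798, 8978, -38717, 13057],
    [0, 0, 0, 5874, 4368, -43246, 49892, -16888],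
    [0, 0, 0, 9622, -18052, 8514, -84],
    [0, 0, 0, 9486, -15456, 6152],
    [0, 0, 0, 2871, -1080, -1153],
    [0, 0, 0, 7983, -12046, 5157],
    [0, 0, 0, -6676, 15388, -7782],
    [0, 0, 0, 5754, -10592, 5257],
    [0, 0, 0, -2535, 6149, -4715, 1101],
    [0, 0, 0, 615, -1839, 1841, -617]]

end Vale.Agent.P224.SH
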