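import Vale.Agent.P224.SH.HD

/-!
The static function in dimension eight.
-/

namespace Vale.Agent.P224.SH

/-- the numbers of the static function in dimension eight -/
def HD8 : HD where
  D := 10000
  KA := 8
  KB := 10
  A := [[0, 0, 1932, -2832, -20277, 78508, -124505, 109408, -56743, 16772, -2263],
    [0, 0, 706, 5183, -33546, 69773, -72002, 40257, -11910, 1539],
    [0, 0, 2006, -7809, 13866, -14800, 9204, -2463, -4],
    [0, 0, 2907, -5100, -3063, 12334, -9614, 2536],
    [0, 0, -1449, 7701, -11532, 6565, -1285],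
    [0, 0, 1791, -3468, 2943, -997],
    [0, 0, -42, 1254, -1164, 372],
    [0, 0, -131, 126, -36, -4]]
  B0 := [[0, -7134, 42792, -107556, 145590, -112950, 48804, -10152, 606],
    [0, 22552, -121092, 269023, -316212, 207138, -71584, 10175],
    [0, -33456, 159010, -273178, 200034, -49294, -3116],
    [0, 33947, -123346, 178474, -122698, 33623],
    [0, -6966, 30912, -36885, 12939],
    [0, 2056, 1522, -2771],
    [0, 1589, 1462, -1242],
    [0, -421, 5548, -2983],
    [0, 7990, -11822, 5958],
    [0, 545, 4374, -2305]]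
  B1 := [[0, 0, -12516, 105114, -369084, 706770, -800460, 537726, -198804, 31254],
    [0, 0, 36167, -221546, 566461, -773724, 595361, -244666, 41947],
    [0, 0, -35069, 162861, -300754, 275786, -125409, 22585],
    [0, 0, 28458, -118526, 184830, -127914, 33152],
    [0, 0, 2998, -11130, 13266, -5134],
    [0, 0, 520, 1066, -4546, 2960],
    [0, 0, 1993, -3272, 1065],
    [0, 0, -1671, 5432, -3525],
    [0, 0, 6041, -11262, 5927],
    [0, 0, -2088, 4466, -2442, 64]]
  B2 := [[0, 0, 0, 25368, -79982, -2014, 321920, -555780, 422962, -153878, 21404],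
    [0, 0, 0, 4811, 11532, -102078, 196772, -165333, 62136, -7840],
    [0, 0, 0, 27834, -96058, 119705, -61107, 8161, 1465],
    [0, 0, 0, 10476, -22140, 9584, 5348, -3268],
    [0, 0, 0, 4538, -2712, -6183, 4357],
    [0, 0, 0, 4343, -4672, 730],
    [0, 0, 0, -1141, 5676, -3532],
    [0, 0, 0, 5838, -10940, 5773],
    [0, 0, 0, -2596, 6026, -3978, 548],
    [0, 0, 0, 367, -1139, 1156, -384]]

end Vale.Agent.P224.SH
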