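import Vale.Agent.P224.UE.Sing4

/-!
The limit of the static functionals.
-/

namespace Vale.Agent.P224.SH

open MeasureTheory Set Filter Function Module Vale.Agent.P224 Vale.Agent.P224.UE
open Vale.Agent.P224.SM2 hiding ker
open scoped Topology RealInnerProductSpace

set_option linter.unusedSectionVars false

/-- the static function: `A (c - s) ^ 2 + (p - t) ^ 2 (B0 + B1 c + B2 p t)` where `A` is
`PA / (1 - T s) ^ qA` and the `B`s are `P / (1 - T s) ^ qB` -/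
noncomputable def HT (qA qB : ℕ) (PA P0 P1 P2 : ℝ → ℝ → ℝ) (T : ℝ) (k : R4) : ℝ :=
  SM2.ker T qA k.1 * PA T k.1 * (k.2.2.2 - k.1) ^ 2
    + (k.2.2.1 - k.2.1) ^ 2 * (SM2.ker T qB k.1
      * (P0 T k.1 + P1 T k.1 * k.2.2.2 + P2 T k.1 * (k.2.2.1 * k.2.1)))

section

variable {X : Type*} [MeasurableSpace X] {E : Type*} [NormedAddCommGroup E]
  [InnerProductSpace ℝ E] [MeasurableSpace E] [BorelSpace E] [SecondCountableTopology E]
  {μ : Measure X} [IsFiniteMeasure μ] {m : ℕ} {p n : X → E}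
  {qA qB : ℕ} {PA P0 P1 P2 : ℝ → ℝ → ℝ}

lemma pr_dat (p n : X → E) (q : X × X) :
    SM2.pr p n q = (dat p n 0 q 0, dat p n 0 q 1, dat p n 0 q 2, dat p n 0 q 3) := rfl

lemma unif_bound {P : ℝ → ℝ → ℝ} (hP : Continuous (uncurry P)) :
    ∃ K : ℝ, 0 ≤ K ∧ ∀ T ∈ Icc (0 : ℝ) 1, ∀ s ∈ Icc (-1 : ℝ) 1, |P T s| ≤ K := by
  obtain ⟨K, hK⟩ := ((isCompact_Icc (a := (0 : ℝ)) (b := 1)).prod
    (isCompact_Icc (a := (-1 : ℝ)) (b := 1))).exists_bound_of_continuousOn hP.continuousOn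
  refine ⟨max K 0, le_max_right _ _, fun T hT s hs => ?_⟩
  have := hK (T, s) ⟨hT, hs⟩
  rw [Real.norm_eq_abs] at this
  exact this.trans (le_max_left _ _)

/-- domination by a power of the distance -/
lemma HT_bound (hm : 0 < m) (hqA : 2 * qA < m) (hqB : 2 * qB < m + 4)
    (hPA : Continuous (uncurry PA)) (hP0 : Continuous (uncurry P0))
    (hP1 : Continuous (uncurry P1)) (hP2 : Continuous (uncurry P2)) {B : ℝ} (hB : 1 ≤ B) :
    ∃ K : ℝ, ∀ T ∈ Icc (0 : ℝ) 1, ∀ d : R9, CB B d → (∀ i : Fin 4, |d (i.castLE (by omega))| ≤ 1) →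
      |HT qA qB PA P0 P1 P2 T (d 0, d 1, d 2, d 3)| ≤ K * sg (m - 1) (d 0) := by
  obtain ⟨KA, hKA0, hKA⟩ := unif_bound hPA
  obtain ⟨K0, hK00, hK0⟩ := unif_bound hP0
  obtain ⟨K1, hK10, hK1⟩ := unif_bound hP1
  obtain ⟨K2, hK20, hK2⟩ := unif_bound hP2
  refine ⟨4 * KA * 2 ^ qA * 2 ^ (0 + (m - 1))
    + 4 * B ^ 2 * (K0 + K1 + K2) * 2 ^ qB * 2 ^ (4 + (m - 1)), fun T hT d hd h1 => ?_⟩
  have hw : 0 < 1 - d 0 := by linarith [hd.s1]
  set r := √(1 - d 0) with hr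
  have hr0 : 0 < r := Real.sqrt_pos.2 hw
  have hrs : r ^ 2 = 1 - d 0 := Real.sq_sqrt hw.le
  have hr2 : r ≤ 2 := by
    rw [hr, Real.sqrt_le_left (by norm_num)]
    linarith [hd.s0]
  have hsI : d 0 ∈ Icc (-1 : ℝ) 1 := ⟨hd.s0, hd.s1.le⟩
  have b0 : |d 0| ≤ 1 := h1 0
  have b1 : |d 1| ≤ 1 := h1 1
  have b2 : |d 2| ≤ 1 := h1 2
  have b3 : |d 3| ≤ 1 := h1 3
  have kA := ker_le_r hT.1 hT.2 hr0 hd.s0 hrs qA
  have kB := ker_le_r hT.1 hT.2 hr0 hd.s0 hrs qB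
  have pA := hKA T hT _ hsI
  have p0 := hK0 T hT _ hsI
  have p1 := hK1 T hT _ hsI
  have p2 := hK2 T hT _ hsI
  have hcs : (d 3 - d 0) ^ 2 ≤ 4 := by
    have h2 : |d 3 - d 0| ≤ 2 := (abs_sub _ _).trans (by linarith)
    have h3 := pow_le_pow_left₀ (abs_nonneg _) h2 2
    rw [sq_abs] at h3
    linarith
  have hpt : (d 2 - d 1) ^ 2 ≤ 4 * B ^ 2 * r ^ 4 := by
    have h2 : |d 2 - d 1| ≤ 2 * (B * r ^ 2) := by
      refine (abs_sub _ _).trans ?_
      have := hd.t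
      have := hd.p
      rw [hrs]
      linarith
    have h3 := pow_le_pow_left₀ (abs_nonneg _) h2 2
    rw [sq_abs] at h3
    calc (d 2 - d 1) ^ 2 ≤ (2 * (B * r ^ 2)) ^ 2 := h3
      _ = _ := by ring
  have hq : |P0 T (d 0) + P1 T (d 0) * d 3 + P2 T (d 0) * (d 2 * d 1)| ≤ K0 + K1 + K2 := by
    refine (abs_add_le _ _).trans ?_
    have h2 := abs_add_le (P0 T (d 0)) (P1 T (d 0) * d 3)
    have h3 : |P1 T (d 0) * d 3| ≤ K1 := by
      rw [abs_mul]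
      calc |P1 T (d 0)| * |d 3| ≤ K1 * 1 := mul_le_mul p1 b3 (abs_nonneg _) hK10
        _ = K1 := mul_one _
    have h4 : |P2 T (d 0) * (d 2 * d 1)| ≤ K2 := by
      rw [abs_mul, abs_mul]
      have h5 : |d 2| * |d 1| ≤ 1 := by
        calc |d 2| * |d 1| ≤ 1 * 1 := mul_le_mul b2 b1 (abs_nonneg _) zero_le_one
          _ = 1 := mul_one _
      calc |P2 T (d 0)| * (|d 2| * |d 1|) ≤ K2 * 1 := mul_le_mul p2 h5 (by positivity) hK20
        _ = K2 := mul_one _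
    linarith
  have keyA := rpow_key (a := 0) (b := 2 * qA) (l := m - 1) hr0 hr2 (by omega)
  have keyB := rpow_key (a := 4) (b := 2 * qB) (l := m - 1) hr0 hr2 (by omega)
  rw [pow_zero, one_mul] at keyA
  have e1 : sg (m - 1) (d 0) = (r ^ (m - 1))⁻¹ := rfl
  have hkA0 : 0 ≤ (r ^ (2 * qA))⁻¹ := by positivity
  have hkB0 : 0 ≤ (r ^ (2 * qB))⁻¹ := by positivity
  have t1 : |SM2.ker T qA (d 0) * PA T (d 0) * (d 3 - d 0) ^ 2|
      ≤ 4 * KA * 2 ^ qA * 2 ^ (0 + (m - 1)) * (r ^ (m - 1))⁻¹ := by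
    rw [abs_mul, abs_mul, abs_of_nonneg (sq_nonneg (d 3 - d 0))]
    calc |SM2.ker T qA (d 0)| * |PA T (d 0)| * (d 3 - d 0) ^ 2
        ≤ (2 ^ qA * (r ^ (2 * qA))⁻¹) * KA * 4 :=
          mul_le_mul (mul_le_mul kA pA (abs_nonneg _) (by positivity)) hcs (sq_nonneg _)
            (by positivity)
      _ = 4 * KA * 2 ^ qA * (r ^ (2 * qA))⁻¹ := by ring
      _ ≤ 4 * KA * 2 ^ qA * (2 ^ (0 + (m - 1)) * (r ^ (m - 1))⁻¹) := by gcongr
      _ = _ := by ring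
  have t2 : |(d 2 - d 1) ^ 2 * (SM2.ker T qB (d 0)
      * (P0 T (d 0) + P1 T (d 0) * d 3 + P2 T (d 0) * (d 2 * d 1)))|
      ≤ 4 * B ^ 2 * (K0 + K1 + K2) * 2 ^ qB * 2 ^ (4 + (m - 1)) * (r ^ (m - 1))⁻¹ := by
    rw [abs_mul, abs_mul, abs_of_nonneg (sq_nonneg (d 2 - d 1))]
    calc (d 2 - d 1) ^ 2 * (|SM2.ker T qB (d 0)|
          * |P0 T (d 0) + P1 T (d 0) * d 3 + P2 T (d 0) * (d 2 * d 1)|)
        ≤ (4 * B ^ 2 * r ^ 4) * ((2 ^ qB * (r ^ (2 * qB))⁻¹) * (K0 + K1 + K2)) :=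
          mul_le_mul hpt (mul_le_mul kB hq (abs_nonneg _) (by positivity))
            (by positivity) (by positivity)
      _ = 4 * B ^ 2 * (K0 + K1 + K2) * 2 ^ qB * (r ^ 4 * (r ^ (2 * qB))⁻¹) := by ring
      _ ≤ 4 * B ^ 2 * (K0 + K1 + K2) * 2 ^ qB * (2 ^ (4 + (m - 1)) * (r ^ (m - 1))⁻¹) := by
          gcongr
      _ = _ := by ring
  rw [e1]
  unfold HT
  refine (abs_add_le _ _).trans ?_
  calc _ ≤ 4 * KA * 2 ^ qA * 2 ^ (0 + (m - 1)) * (r ^ (m - 1))⁻¹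
      + 4 * B ^ 2 * (K0 + K1 + K2) * 2 ^ qB * 2 ^ (4 + (m - 1)) * (r ^ (m - 1))⁻¹ :=
        add_le_add t1 t2
    _ = _ := by ring

lemma measurable_HT (hPA : Continuous (uncurry PA)) (hP0 : Continuous (uncurry P0))
    (hP1 : Continuous (uncurry P1)) (hP2 : Continuous (uncurry P2)) (T : ℝ) :
    Measurable (HT qA qB PA P0 P1 P2 T) := by
  have h1 := measurable_ker T qA
  have h2 := measurable_ker T qB
  have c : ∀ {P : ℝ → ℝ → ℝ}, Continuous (uncurry P) → Measurable fun k : R4 => P T k.1 := by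
    intro P hP
    have : Continuous fun k : R4 => (T, k.1) := by fun_prop
    exact (hP.comp this).measurable
  have a1 := c hPA
  have a2 := c hP0
  have a3 := c hP1
  have a4 := c hP2
  have h1' : Measurable fun k : R4 => SM2.ker T qA k.1 := h1.comp measurable_fst
  have h2' : Measurable fun k : R4 => SM2.ker T qB k.1 := h2.comp measurable_fst
  unfold HT
  fun_prop

/-- the limit of the integrals of the static functions -/
theorem HT_lim (h : TwoG μ m p n) (hm : 0 < m) {C : ℝ} (hc : Contact p n C)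
    (hqA : 2 * qA < m) (hqB : 2 * qB < m + 4)
    (hPA : Continuous (uncurry PA)) (hP0 : Continuous (uncurry P0))
    (hP1 : Continuous (uncurry P1)) (hP2 : Continuous (uncurry P2)) :
    Integrable (fun q => HT qA qB PA P0 P1 P2 1 (SM2.pr p n q)) (μ.prod μ) ∧
    Tendsto (fun T => ∫ q, HT qA qB PA P0 P1 P2 T (SM2.pr p n q) ∂(μ.prod μ)) (𝓝[<] 1)
      (𝓝 (∫ q, HT qA qB PA P0 P1 P2 1 (SM2.pr p n q) ∂(μ.prod μ))) := by
  obtain ⟨K, hK⟩ := HT_bound hm hqA hqB hPA hP0 hP1 hP2 (one_le_bC (le_max_right C 1) (0 : E))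
  have hint : Integrable (fun y => K * sg (m - 1) (dat p n 0 y 0)) (μ.prod μ) :=
    (h.integrable_sg hm 0 (by omega)).const_mul _
  have hfm : ∀ T, AEStronglyMeasurable (fun q => HT qA qB PA P0 P1 P2 T (SM2.pr p n q))
      (μ.prod μ) := by
    intro T
    have h1 : Measurable (SM2.pr p n) := by
      have h2 := measurable_dat h.toPts (0 : E)
      have h3 : Measurable (fun q : X × X =>
          ((dat p n 0 q 0, dat p n 0 q 1, dat p n 0 q 2, dat p n 0 q 3) : R4)) := by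
        fun_prop
      exact h3
    exact ((measurable_HT hPA hP0 hP1 hP2 T).comp h1).aestronglyMeasurable
  have hdom : ∀ T ∈ Icc (0 : ℝ) 1, ∀ᵐ y ∂(μ.prod μ),
      ‖HT qA qB PA P0 P1 P2 T (SM2.pr p n y)‖ ≤ K * sg (m - 1) (dat p n 0 y 0) := by
    intro T hT
    filter_upwards [h.ae_lt hm 0] with y hy
    have hcb := hc.cb h.toPts (0 : E) hy
    rw [Real.norm_eq_abs, pr_dat]
    refine hK T hT _ hcb fun i => ?_
    have key : ∀ a b : E, ‖a‖ = 1 → ‖b‖ = 1 → |⟪a, b⟫| ≤ 1 := by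
      intro a b ha hb
      have := abs_real_inner_le_norm a b
      rwa [ha, hb, mul_one] at this
    fin_cases i
    · exact key _ _ (h.np _) (h.np _)
    · exact key _ _ (h.np _) (h.nn _)
    · exact key _ _ (h.nn _) (h.np _)
    · exact key _ _ (h.nn _) (h.nn _)
  have h01 : (1 : ℝ) ∈ Icc (0 : ℝ) 1 := ⟨zero_le_one, le_rfl⟩
  refine ⟨hint.mono' (hfm 1) (hdom 1 h01), ?_⟩
  have h0 : ∀ᶠ T in 𝓝[<] (1 : ℝ), T ∈ Ioo (0 : ℝ) 1 := Ioo_mem_nhdsLT one_pos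
  refine tendsto_integral_filter_of_dominated_convergence _ (Eventually.of_forall hfm) ?_ hint ?_
  · filter_upwards [h0] with T hT
    exact hdom T ⟨hT.1.le, hT.2.le⟩
  · filter_upwards [h.ae_lt hm 0] with y hy
    have hs : (SM2.pr p n y).1 < 1 := hy
    have c1 := contAt_ker hs qA
    have c2 := contAt_ker hs qB
    have cP : ∀ {P : ℝ → ℝ → ℝ}, Continuous (uncurry P) →
        ContinuousAt (fun T => P T (SM2.pr p n y).1) 1 := by
      intro P hP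
      have : Continuous fun T : ℝ => (T, (SM2.pr p n y).1) := by fun_prop
      exact (hP.comp this).continuousAt
    have a1 := cP hPA
    have a2 := cP hP0
    have a3 := cP hP1
    have a4 := cP hP2
    have hcont : ContinuousAt (fun T => HT qA qB PA P0 P1 P2 T (SM2.pr p n y)) 1 := by
      unfold HT
      fun_prop
    exact hcont.tendsto.mono_left nhdsWithin_le_nhds

end

end Vale.Agent.P224.SH
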