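import Vale.Agent.P224.SH.HD
import Vale.Agent.P224.SH.LimH
import Vale.Agent.P224.UE.Sing6
import Vale.Agent.P224.SMH.Static

/-!
Static functions given by lists of integers: regularity, domination and limit.
-/

namespace Vale.Agent.P224.SH

open MeasureTheory Set Filter Function Module Vale.Agent.P224 Vale.Agent.P224.UE
open Vale.Agent.P224.SM2 hiding ker
open scoped Topology RealInnerProductSpace ContDiff Manifold

set_option linter.unusedSectionVars false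

/-! ### regularity -/

lemma measurable_cf (K : ℕ) (D : ℤ) (P : List (List ℤ)) (T : ℝ) : Measurable (cf K D P T) := by
  have h1 := SM2.measurable_ker T K
  have h2 : Measurable fun s : ℝ => pv2 P T (1 - T * s) := by
    have : Continuous fun s : ℝ => ((T, 1 - T * s) : ℝ × ℝ) := by fun_prop
    exact ((continuous_pv2 P).comp this).measurable
  have : cf K D P T = fun s => SM2.ker T K s * pv2 P T (1 - T * s) / D := rfl
  rw [this]
  fun_prop

lemma measurable_cf' (K : ℕ) (D : ℤ) (P : List (List ℤ)) (T : ℝ) : Measurable (cf' K D P T) := by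
  have h1 := SM2.measurable_ker T K
  have h1' := SM2.measurable_ker T (K + 1)
  have hc : Continuous fun s : ℝ => ((T, 1 - T * s) : ℝ × ℝ) := by fun_prop
  have h2 : Measurable fun s : ℝ => pv2 P T (1 - T * s) :=
    ((continuous_pv2 P).comp hc).measurable
  have h3 : Measurable fun s : ℝ => pvT P T (1 - T * s) :=
    ((continuous_pvT P).comp hc).measurable
  have h4 : Measurable fun s : ℝ => pvV P T (1 - T * s) :=
    ((continuous_pvV P).comp hc).measurable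
  have : cf' K D P T = fun s => (SM2.ker T K s * (pvT P T (1 - T * s) - s * pvV P T (1 - T * s))
    + K * s * SM2.ker T (K + 1) s * pv2 P T (1 - T * s)) / D := rfl
  rw [this]
  fun_prop

lemma measurable_Hd (d : HD) (T : ℝ) : Measurable (Hd d T) := by
  have c : ∀ K D P, Measurable fun k : R4 => cf K D P T k.1 := fun K D P =>
    (measurable_cf K D P T).comp measurable_fst
  have a1 := c d.KA d.D d.A
  have a2 := c d.KB d.D d.B0
  have a3 := c d.KB d.D d.B1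
  have a4 := c d.KB d.D d.B2
  unfold Hd
  fun_prop

lemma measurable_Hd' (d : HD) (T : ℝ) : Measurable (Hd' d T) := by
  have c : ∀ K D P, Measurable fun k : R4 => cf' K D P T k.1 := fun K D P =>
    (measurable_cf' K D P T).comp measurable_fst
  have a1 := c d.KA d.D d.A
  have a2 := c d.KB d.D d.B0
  have a3 := c d.KB d.D d.B1
  have a4 := c d.KB d.D d.B2
  unfold Hd'
  fun_prop

lemma contOn_cf (K : ℕ) (D : ℤ) (P : List (List ℤ)) :
    ContinuousOn (fun z : ℝ × R4 => cf K D P z.1 z.2.1) (Ico 0 1 ×ˢ KK) := by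
  have h1 := SM2.contOn_ker K
  have h2 : ContinuousOn (fun z : ℝ × R4 => pv2 P z.1 (1 - z.1 * z.2.1)) (Ico 0 1 ×ˢ KK) := by
    have : Continuous fun z : ℝ × R4 => ((z.1, 1 - z.1 * z.2.1) : ℝ × ℝ) := by fun_prop
    exact ((continuous_pv2 P).comp this).continuousOn
  unfold cf
  exact (h1.mul h2).div_const _

lemma contOn_cf' (K : ℕ) (D : ℤ) (P : List (List ℤ)) :
    ContinuousOn (fun z : ℝ × R4 => cf' K D P z.1 z.2.1) (Ico 0 1 ×ˢ KK) := by
  have h1 := SM2.contOn_ker K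
  have h1' := SM2.contOn_ker (K + 1)
  have hc : Continuous fun z : ℝ × R4 => ((z.1, 1 - z.1 * z.2.1) : ℝ × ℝ) := by fun_prop
  have h2 : ContinuousOn (fun z : ℝ × R4 => pv2 P z.1 (1 - z.1 * z.2.1)) (Ico 0 1 ×ˢ KK) :=
    ((continuous_pv2 P).comp hc).continuousOn
  have h3 : ContinuousOn (fun z : ℝ × R4 => pvT P z.1 (1 - z.1 * z.2.1)) (Ico 0 1 ×ˢ KK) :=
    ((continuous_pvT P).comp hc).continuousOn
  have h4 : ContinuousOn (fun z : ℝ × R4 => pvV P z.1 (1 - z.1 * z.2.1)) (Ico 0 1 ×ˢ KK) :=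
    ((continuous_pvV P).comp hc).continuousOn
  have hs : ContinuousOn (fun z : ℝ × R4 => z.2.1) (Ico 0 1 ×ˢ KK) := by fun_prop
  unfold cf'
  exact ((h1.mul (h3.sub (hs.mul h4))).add (((continuousOn_const.mul hs).mul h1').mul h2)).div_const
    _

lemma contOn_Hd (d : HD) : ContinuousOn (uncurry (Hd d)) (Ico 0 1 ×ˢ KK) := by
  have a1 := contOn_cf d.KA d.D d.A
  have a2 := contOn_cf d.KB d.D d.B0
  have a3 := contOn_cf d.KB d.D d.B1
  have a4 := contOn_cf d.KB d.D d.B2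
  unfold Hd
  simp only [uncurry_def]
  fun_prop

lemma contOn_Hd' (d : HD) : ContinuousOn (uncurry (Hd' d)) (Ico 0 1 ×ˢ KK) := by
  have a1 := contOn_cf' d.KA d.D d.A
  have a2 := contOn_cf' d.KB d.D d.B0
  have a3 := contOn_cf' d.KB d.D d.B1
  have a4 := contOn_cf' d.KB d.D d.B2
  unfold Hd'
  simp only [uncurry_def]
  fun_prop

/-! ### the value at zero -/

/-- all coefficients vanish at zero -/
def zOk (P : List (List ℤ)) : Bool := P.all fun c => c.headD 0 == 0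

lemma pv2_zero {P : List (List ℤ)} (h : zOk P = true) (v : ℝ) : pv2 P 0 v = 0 := by
  induction P with
  | nil => rfl
  | cons c P ih =>
    simp only [zOk, List.all_cons, Bool.and_eq_true, beq_iff_eq] at h
    have h1 : pv c 0 = 0 := by
      cases c with
      | nil => rfl
      | cons a l =>
        have : a = 0 := h.1
        simp [pv, this]
    have h2 := ih h.2
    simp only [pv2, h1, h2]
    ring

/-- the checks on the data -/
def HD.zOk (d : HD) : Bool := SH.zOk d.A && SH.zOk d.B0 && SH.zOk d.B1 && SH.zOk d.B2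

lemma Hd_zero {d : HD} (h : d.zOk = true) (k : R4) : Hd d 0 k = 0 := by
  simp only [HD.zOk, Bool.and_eq_true] at h
  obtain ⟨⟨⟨hA, h0⟩, h1⟩, h2⟩ := h
  unfold Hd cf
  rw [pv2_zero hA, pv2_zero h0, pv2_zero h1, pv2_zero h2]
  simp

/-- the static part from the pointwise inequality -/
lemma stat_Hd {m : ℕ} {y e r : ℝ → ℝ} {d : HD} (h0 : d.zOk = true)
    (hle : ∀ T ∈ Ioo (0 : ℝ) 1, ∀ k, SMH.Adm k → Hd' d T k ≤ FK m T (y T) (e T) (r T) k) :
    SMH.Stat m y e r (Hd d) (Hd' d) where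
  meas := measurable_Hd d
  meas' := measurable_Hd' d
  cont := contOn_Hd d
  cont' := (contOn_Hd' d).mono (prod_mono Ioo_subset_Ico_self subset_rfl)
  deriv := fun _ hT _ hk => hasDerivAt_Hd d (one_sub_pos' ⟨hT.1.le, hT.2⟩ hk.1.2).ne'
  zero := Hd_zero h0
  le := hle

/-! ### divisibility -/

/-- prefix sums -/
def psum (a : ℤ) : List ℤ → List ℤ
  | [] => []
  | x :: l => (a + x) :: psum (a + x) l

lemma pv_psum (a : ℤ) (l : List ℤ) (T : ℝ) :
    (1 - T) * pv (psum a l) T = a + pv l T - ((a + l.sum : ℤ) : ℝ) * T ^ l.length := by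
  induction l generalizing a with
  | nil => simp [psum, pv]
  | cons x l ih =>
    have h := ih (a + x)
    simp only [psum, pv, List.sum_cons, List.length_cons]
    push_cast at h ⊢
    linear_combination T * h

/-- divisibility by a power of `1 - T` -/
def div1 : ℕ → List ℤ → Bool
  | 0, _ => true
  | j + 1, l => (l.sum == 0) && div1 j (psum 0 l)

lemma div1_spec {j : ℕ} {l : List ℤ} (h : div1 j l = true) :
    ∃ q : List ℤ, ∀ T : ℝ, pv l T = (1 - T) ^ j * pv q T := by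
  induction j generalizing l with
  | zero => exact ⟨l, fun T => by ring⟩
  | succ j ih =>
    simp only [div1, Bool.and_eq_true, beq_iff_eq] at h
    obtain ⟨q, hq⟩ := ih h.2
    refine ⟨q, fun T => ?_⟩
    have h1 := pv_psum 0 l T
    rw [h.1] at h1
    push_cast at h1
    rw [pow_succ']
    linear_combination (1 - T) * hq T - h1

/-- the singular powers have small coefficients -/
def dvOk (k0 : ℕ) : ℕ → List (List ℤ) → Bool
  | _, [] => true
  | 0, _ :: _ => true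
  | K + 1, c :: P => div1 (K + 1 - k0) c && dvOk k0 K P

lemma pow_le_half {r : ℝ} (hr0 : 0 < r) (hr : r ^ 2 ≤ 2) (k0 : ℕ) :
    1 ≤ 2 ^ k0 * (r ^ (2 * k0))⁻¹ := by
  rw [pow_mul, ← div_eq_mul_inv, one_le_div (by positivity)]
  exact pow_le_pow_left₀ (by positivity) hr _

lemma ker_dv {T s r : ℝ} (hT0 : 0 ≤ T) (hT1 : T ≤ 1) (hr0 : 0 < r) (hs0 : -1 ≤ s)
    (hrs : r ^ 2 = 1 - s) (k0 K : ℕ) :
    |SM2.ker T K s * (1 - T) ^ (K - k0)| ≤ 2 ^ k0 * (r ^ (2 * k0))⁻¹ := by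
  have hr2 : r ^ 2 ≤ 2 := by linarith
  rcases le_total K k0 with h | h
  · rw [Nat.sub_eq_zero_of_le h, pow_zero, mul_one]
    refine (ker_le_r hT0 hT1 hr0 hs0 hrs K).trans ?_
    obtain ⟨j, rfl⟩ := Nat.exists_eq_add_of_le h
    have h1 := pow_le_half hr0 hr2 j
    have h2 : (0 : ℝ) ≤ 2 ^ K * (r ^ (2 * K))⁻¹ := by positivity
    calc 2 ^ K * (r ^ (2 * K))⁻¹ = 2 ^ K * (r ^ (2 * K))⁻¹ * 1 := by ring
      _ ≤ 2 ^ K * (r ^ (2 * K))⁻¹ * (2 ^ j * (r ^ (2 * j))⁻¹) :=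
          mul_le_mul_of_nonneg_left h1 h2
      _ = 2 ^ (K + j) * (r ^ (2 * (K + j)))⁻¹ := by
          rw [mul_add, pow_add r, pow_add (2 : ℝ), mul_inv]
          ring
  · obtain ⟨j, rfl⟩ := Nat.exists_eq_add_of_le h
    rw [Nat.add_sub_cancel_left]
    have hv : 0 < 1 - T * s := by
      have h1 : 0 < 1 - s := by rw [← hrs]; positivity
      by_cases hs : 0 ≤ s
      · nlinarith
      · push Not at hs
        nlinarith
    have hle : 1 - T ≤ 1 - T * s := by nlinarith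
    have e1 : SM2.ker T (k0 + j) s * (1 - T) ^ j = SM2.ker T k0 s * ((1 - T) / (1 - T * s)) ^ j := by
      unfold SM2.ker
      rw [pow_add, mul_inv, div_pow]
      ring
    have h2 : 0 ≤ (1 - T) / (1 - T * s) := div_nonneg (by linarith) hv.le
    have h3 : (1 - T) / (1 - T * s) ≤ 1 := (div_le_one hv).2 hle
    rw [e1, abs_mul, abs_of_nonneg (pow_nonneg h2 j)]
    calc |SM2.ker T k0 s| * ((1 - T) / (1 - T * s)) ^ j ≤ |SM2.ker T k0 s| * 1 :=
          mul_le_mul_of_nonneg_left (pow_le_one₀ h2 h3) (abs_nonneg _)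
      _ = |SM2.ker T k0 s| := mul_one _
      _ ≤ _ := ker_le_r hT0 hT1 hr0 hs0 hrs k0

lemma pv_bound (l : List ℤ) : ∃ M : ℝ, 0 ≤ M ∧ ∀ T ∈ Icc (0 : ℝ) 1, |pv l T| ≤ M := by
  obtain ⟨M, hM⟩ := (isCompact_Icc (a := (0 : ℝ)) (b := 1)).exists_bound_of_continuousOn
    (continuous_pv l).continuousOn
  exact ⟨max M 0, le_max_right _ _, fun T hT => (hM T hT).trans (le_max_left _ _)⟩

lemma pv2_bound (P : List (List ℤ)) :
    ∃ M : ℝ, 0 ≤ M ∧ ∀ T ∈ Icc (0 : ℝ) 1, ∀ v ∈ Icc (0 : ℝ) 2, |pv2 P T v| ≤ M := by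
  obtain ⟨M, hM⟩ := ((isCompact_Icc (a := (0 : ℝ)) (b := 1)).prod
    (isCompact_Icc (a := (0 : ℝ)) (b := 2))).exists_bound_of_continuousOn
    (continuous_pv2 P).continuousOn
  exact ⟨max M 0, le_max_right _ _, fun T hT v hv => (hM (T, v) ⟨hT, hv⟩).trans (le_max_left _ _)⟩

lemma v_mem {T s : ℝ} (hT : T ∈ Icc (0 : ℝ) 1) (hs : s ∈ Ico (-1 : ℝ) 1) :
    1 - T * s ∈ Icc (0 : ℝ) 2 ∧ 1 - T * s ≠ 0 := by
  have hv : 0 < 1 - T * s := by
    by_cases h : 0 ≤ s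
    · nlinarith [hT.1, hT.2, hs.1, hs.2]
    · push Not at h
      nlinarith [hT.1, hT.2, hs.1, hs.2]
  refine ⟨⟨hv.le, ?_⟩, hv.ne'⟩
  nlinarith [hT.1, hT.2, hs.1, hs.2]

lemma ker_pv2_bound {k0 : ℕ} (K : ℕ) (P : List (List ℤ)) (h : dvOk k0 K P = true) :
    ∃ C : ℝ, 0 ≤ C ∧ ∀ T ∈ Icc (0 : ℝ) 1, ∀ s ∈ Ico (-1 : ℝ) 1, ∀ r : ℝ, 0 < r → r ^ 2 = 1 - s →
      |SM2.ker T K s * pv2 P T (1 - T * s)| ≤ C * (r ^ (2 * k0))⁻¹ := by
  induction P generalizing K with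
  | nil =>
    refine ⟨0, le_rfl, fun T _ s _ r _ _ => ?_⟩
    simp [pv2]
  | cons c P ih =>
    rcases K with _ | K
    · obtain ⟨M, hM0, hM⟩ := pv2_bound (c :: P)
      refine ⟨M * 2 ^ k0, by positivity, fun T hT s hs r hr0 hrs => ?_⟩
      have h1 := hM T hT _ (v_mem hT hs).1
      have h2 := pow_le_half hr0 (by linarith [hs.1] : r ^ 2 ≤ 2) k0
      have e1 : SM2.ker T 0 s = 1 := by simp [SM2.ker]
      rw [e1, one_mul]
      calc |pv2 (c :: P) T (1 - T * s)| ≤ M * 1 := by rw [mul_one]; exact h1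
        _ ≤ M * (2 ^ k0 * (r ^ (2 * k0))⁻¹) := mul_le_mul_of_nonneg_left h2 hM0
        _ = _ := by ring
    · simp only [dvOk, Bool.and_eq_true] at h
      obtain ⟨C1, hC10, hC1⟩ := ih K h.2
      obtain ⟨q, hq⟩ := div1_spec h.1
      obtain ⟨M, hM0, hM⟩ := pv_bound q
      refine ⟨2 ^ k0 * M + C1, by positivity, fun T hT s hs r hr0 hrs => ?_⟩
      have hv := (v_mem hT hs).2
      have h1 := hC1 T hT s hs r hr0 hrs
      have h2 := ker_dv hT.1 hT.2 hr0 hs.1 hrs k0 (K + 1)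
      have h3 := hM T hT
      have e1 : SM2.ker T (K + 1) s * pv2 (c :: P) T (1 - T * s)
          = SM2.ker T (K + 1) s * (1 - T) ^ (K + 1 - k0) * pv q T
            + SM2.ker T K s * pv2 P T (1 - T * s) := by
        have e2 : pv2 (c :: P) T (1 - T * s) = pv c T + (1 - T * s) * pv2 P T (1 - T * s) := rfl
        have e3 : SM2.ker T (K + 1) s * (1 - T * s) = SM2.ker T K s := by
          unfold SM2.ker
          rw [pow_succ, mul_inv, mul_assoc, inv_mul_cancel₀ hv, mul_one]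
        rw [e2, hq T, ← e3]
        ring
      rw [e1]
      refine (abs_add_le _ _).trans ?_
      rw [add_mul]
      refine add_le_add ?_ h1
      rw [abs_mul]
      calc |SM2.ker T (K + 1) s * (1 - T) ^ (K + 1 - k0)| * |pv q T|
          ≤ (2 ^ k0 * (r ^ (2 * k0))⁻¹) * M := mul_le_mul h2 h3 (abs_nonneg _) (by positivity)
        _ = _ := by ring

lemma cf_bound {k0 : ℕ} (K : ℕ) (D : ℤ) (P : List (List ℤ)) (h : dvOk k0 K P = true) :
    ∃ C : ℝ, 0 ≤ C ∧ ∀ T ∈ Icc (0 : ℝ) 1, ∀ s ∈ Ico (-1 : ℝ) 1, ∀ r : ℝ, 0 < r → r ^ 2 = 1 - s →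
      |cf K D P T s| ≤ C * (r ^ (2 * k0))⁻¹ := by
  obtain ⟨C, hC0, hC⟩ := ker_pv2_bound K P h
  refine ⟨C * |(D : ℝ)|⁻¹, by positivity, fun T hT s hs r hr0 hrs => ?_⟩
  unfold cf
  rw [abs_div, div_eq_mul_inv]
  calc |SM2.ker T K s * pv2 P T (1 - T * s)| * |(D : ℝ)|⁻¹
      ≤ (C * (r ^ (2 * k0))⁻¹) * |(D : ℝ)|⁻¹ :=
        mul_le_mul_of_nonneg_right (hC T hT s hs r hr0 hrs) (by positivity)
    _ = _ := by ring

/-- the checks on the singular powers -/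
def HD.dvOk (d : HD) (kA kB : ℕ) : Bool :=
  SH.dvOk kA d.KA d.A && SH.dvOk kB d.KB d.B0 && SH.dvOk kB d.KB d.B1 && SH.dvOk kB d.KB d.B2

/-- domination by a power of the distance -/
lemma Hd_bound {m : ℕ} {d : HD} {kA kB : ℕ} (hd : d.dvOk kA kB = true) (hm : 0 < m)
    (hqA : 2 * kA < m) (hqB : 2 * kB < m + 4) {B : ℝ} (hB : 1 ≤ B) :
    ∃ K : ℝ, ∀ T ∈ Icc (0 : ℝ) 1, ∀ x : R9, CB B x → (∀ i : Fin 4, |x (i.castLE (by omega))| ≤ 1) →
      |Hd d T (x 0, x 1, x 2, x 3)| ≤ K * sg (m - 1) (x 0) := by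
  simp only [HD.dvOk, Bool.and_eq_true] at hd
  obtain ⟨⟨⟨hA, h0⟩, h1⟩, h2⟩ := hd
  obtain ⟨KA, hKA0, hKA⟩ := cf_bound d.KA d.D d.A hA
  obtain ⟨K0, hK00, hK0⟩ := cf_bound d.KB d.D d.B0 h0
  obtain ⟨K1, hK10, hK1⟩ := cf_bound d.KB d.D d.B1 h1
  obtain ⟨K2, hK20, hK2⟩ := cf_bound d.KB d.D d.B2 h2
  refine ⟨4 * KA * 2 ^ (0 + (m - 1))
    + 4 * B ^ 2 * (K0 + K1 + K2) * 2 ^ (4 + (m - 1)), fun T hT x hx h1 => ?_⟩
  have hw : 0 < 1 - x 0 := by linarith [hx.s1]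
  set r := √(1 - x 0) with hr
  have hr0 : 0 < r := Real.sqrt_pos.2 hw
  have hrs : r ^ 2 = 1 - x 0 := Real.sq_sqrt hw.le
  have hr2 : r ≤ 2 := by
    rw [hr, Real.sqrt_le_left (by norm_num)]
    linarith [hx.s0]
  have hsI : x 0 ∈ Ico (-1 : ℝ) 1 := ⟨hx.s0, hx.s1⟩
  have b0 : |x 0| ≤ 1 := h1 0
  have b1 : |x 1| ≤ 1 := h1 1
  have b2 : |x 2| ≤ 1 := h1 2
  have b3 : |x 3| ≤ 1 := h1 3
  have pA := hKA T hT _ hsI r hr0 hrs
  have p0 := hK0 T hT _ hsI r hr0 hrs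
  have p1 := hK1 T hT _ hsI r hr0 hrs
  have p2 := hK2 T hT _ hsI r hr0 hrs
  have hcs : (x 3 - x 0) ^ 2 ≤ 4 := by
    have h2 : |x 3 - x 0| ≤ 2 := (abs_sub _ _).trans (by linarith)
    have h3 := pow_le_pow_left₀ (abs_nonneg _) h2 2
    rw [sq_abs] at h3
    linarith
  have hpt : (x 2 - x 1) ^ 2 ≤ 4 * B ^ 2 * r ^ 4 := by
    have h2 : |x 2 - x 1| ≤ 2 * (B * r ^ 2) := by
      refine (abs_sub _ _).trans ?_
      have := hx.t
      have := hx.p
      rw [hrs]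
      linarith
    have h3 := pow_le_pow_left₀ (abs_nonneg _) h2 2
    rw [sq_abs] at h3
    calc (x 2 - x 1) ^ 2 ≤ (2 * (B * r ^ 2)) ^ 2 := h3
      _ = _ := by ring
  have hkA0 : 0 ≤ (r ^ (2 * kA))⁻¹ := by positivity
  have hkB0 : 0 ≤ (r ^ (2 * kB))⁻¹ := by positivity
  have hq : |cf d.KB d.D d.B0 T (x 0) + cf d.KB d.D d.B1 T (x 0) * x 3
      + cf d.KB d.D d.B2 T (x 0) * (x 2 * x 1)| ≤ (K0 + K1 + K2) * (r ^ (2 * kB))⁻¹ := by
    refine (abs_add_le _ _).trans ?_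
    have h2 := abs_add_le (cf d.KB d.D d.B0 T (x 0)) (cf d.KB d.D d.B1 T (x 0) * x 3)
    have h3 : |cf d.KB d.D d.B1 T (x 0) * x 3| ≤ K1 * (r ^ (2 * kB))⁻¹ := by
      rw [abs_mul]
      calc |cf d.KB d.D d.B1 T (x 0)| * |x 3| ≤ K1 * (r ^ (2 * kB))⁻¹ * 1 :=
            mul_le_mul p1 b3 (abs_nonneg _) (by positivity)
        _ = K1 * (r ^ (2 * kB))⁻¹ := mul_one _
    have h4 : |cf d.KB d.D d.B2 T (x 0) * (x 2 * x 1)| ≤ K2 * (r ^ (2 * kB))⁻¹ := by
      rw [abs_mul, abs_mul]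
      have h5 : |x 2| * |x 1| ≤ 1 := by
        calc |x 2| * |x 1| ≤ 1 * 1 := mul_le_mul b2 b1 (abs_nonneg _) zero_le_one
          _ = 1 := mul_one _
      calc |cf d.KB d.D d.B2 T (x 0)| * (|x 2| * |x 1|) ≤ K2 * (r ^ (2 * kB))⁻¹ * 1 :=
            mul_le_mul p2 h5 (by positivity) (by positivity)
        _ = K2 * (r ^ (2 * kB))⁻¹ := mul_one _
    rw [add_mul, add_mul]
    linarith
  have keyA := rpow_key (a := 0) (b := 2 * kA) (l := m - 1) hr0 hr2 (by omega)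
  have keyB := rpow_key (a := 4) (b := 2 * kB) (l := m - 1) hr0 hr2 (by omega)
  rw [pow_zero, one_mul] at keyA
  have e1 : sg (m - 1) (x 0) = (r ^ (m - 1))⁻¹ := rfl
  have t1 : |cf d.KA d.D d.A T (x 0) * (x 3 - x 0) ^ 2|
      ≤ 4 * KA * 2 ^ (0 + (m - 1)) * (r ^ (m - 1))⁻¹ := by
    rw [abs_mul, abs_of_nonneg (sq_nonneg (x 3 - x 0))]
    calc |cf d.KA d.D d.A T (x 0)| * (x 3 - x 0) ^ 2
        ≤ KA * (r ^ (2 * kA))⁻¹ * 4 := mul_le_mul pA hcs (sq_nonneg _) (by positivity)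
      _ = 4 * KA * (r ^ (2 * kA))⁻¹ := by ring
      _ ≤ 4 * KA * (2 ^ (0 + (m - 1)) * (r ^ (m - 1))⁻¹) := by gcongr
      _ = _ := by ring
  have t2 : |(x 2 - x 1) ^ 2 * (cf d.KB d.D d.B0 T (x 0) + cf d.KB d.D d.B1 T (x 0) * x 3
      + cf d.KB d.D d.B2 T (x 0) * (x 2 * x 1))|
      ≤ 4 * B ^ 2 * (K0 + K1 + K2) * 2 ^ (4 + (m - 1)) * (r ^ (m - 1))⁻¹ := by
    rw [abs_mul, abs_of_nonneg (sq_nonneg (x 2 - x 1))]
    calc (x 2 - x 1) ^ 2 * |cf d.KB d.D d.B0 T (x 0) + cf d.KB d.D d.B1 T (x 0) * x 3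
          + cf d.KB d.D d.B2 T (x 0) * (x 2 * x 1)|
        ≤ (4 * B ^ 2 * r ^ 4) * ((K0 + K1 + K2) * (r ^ (2 * kB))⁻¹) :=
          mul_le_mul hpt hq (abs_nonneg _) (by positivity)
      _ = 4 * B ^ 2 * (K0 + K1 + K2) * (r ^ 4 * (r ^ (2 * kB))⁻¹) := by ring
      _ ≤ 4 * B ^ 2 * (K0 + K1 + K2) * (2 ^ (4 + (m - 1)) * (r ^ (m - 1))⁻¹) := by
          gcongr
      _ = _ := by ring
  rw [e1]
  unfold Hd
  refine (abs_add_le _ _).trans ?_
  calc _ ≤ 4 * KA * 2 ^ (0 + (m - 1)) * (r ^ (m - 1))⁻¹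
      + 4 * B ^ 2 * (K0 + K1 + K2) * 2 ^ (4 + (m - 1)) * (r ^ (m - 1))⁻¹ :=
        add_le_add t1 t2
    _ = _ := by ring

/-- continuity in `T` off the diagonal -/
lemma contAt_cf (K : ℕ) (D : ℤ) (P : List (List ℤ)) {s : ℝ} (hs : s < 1) :
    ContinuousAt (fun T => cf K D P T s) 1 := by
  have h : 1 - (1 : ℝ) * s ≠ 0 := by
    have : 0 < 1 - (1 : ℝ) * s := by linarith
    exact this.ne'
  exact (hasDerivAt_cf K D P h).continuousAt

section

variable {X : Type*} [MeasurableSpace X] {E : Type*} [NormedAddCommGroup E]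
  [InnerProductSpace ℝ E] [MeasurableSpace E] [BorelSpace E] [SecondCountableTopology E]
  {μ : Measure X} [IsFiniteMeasure μ] {m : ℕ} {p n : X → E}

/-- domination and limit -/
theorem Hd_lim (h : TwoG μ m p n) (hm : 0 < m) {C : ℝ} (hc : Contact p n C) {d : HD} {kA kB : ℕ}
    (hd : d.dvOk kA kB = true) (hqA : 2 * kA < m) (hqB : 2 * kB < m + 4) :
    ∃ g : X × X → ℝ, Integrable g (μ.prod μ) ∧
      (∀ T ∈ Ioo (0 : ℝ) 1, ∀ᵐ q ∂(μ.prod μ), |Hd d T (SM2.pr p n q)| ≤ g q) ∧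
      (∀ᵐ q ∂(μ.prod μ), Tendsto (fun T => Hd d T (SM2.pr p n q)) (𝓝[<] 1)
        (𝓝 (Hd d 1 (SM2.pr p n q)))) := by
  obtain ⟨K, hK⟩ := Hd_bound hd hm hqA hqB (one_le_bC (le_max_right C 1) (0 : E))
  refine ⟨fun y => K * sg (m - 1) (dat p n 0 y 0),
    (h.integrable_sg hm 0 (by omega)).const_mul _, fun T hT => ?_, ?_⟩
  · filter_upwards [h.ae_lt hm 0] with y hy
    have hcb := hc.cb h.toPts (0 : E) hy
    rw [pr_dat]
    refine hK T ⟨hT.1.le, hT.2.le⟩ _ hcb fun i => ?_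
    have key : ∀ a b : E, ‖a‖ = 1 → ‖b‖ = 1 → |⟪a, b⟫| ≤ 1 := by
      intro a b ha hb
      have := abs_real_inner_le_norm a b
      rwa [ha, hb, mul_one] at this
    fin_cases i
    · exact key _ _ (h.np _) (h.np _)
    · exact key _ _ (h.np _) (h.nn _)
    · exact key _ _ (h.nn _) (h.np _)
    · exact key _ _ (h.nn _) (h.nn _)
  · filter_upwards [h.ae_lt hm 0] with y hy
    have hs : (SM2.pr p n y).1 < 1 := hy
    have a1 := contAt_cf d.KA d.D d.A hs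
    have a2 := contAt_cf d.KB d.D d.B0 hs
    have a3 := contAt_cf d.KB d.D d.B1 hs
    have a4 := contAt_cf d.KB d.D d.B2 hs
    have hcont : ContinuousAt (fun T => Hd d T (SM2.pr p n y)) 1 := by
      unfold Hd
      exact (a1.mul continuousAt_const).add (continuousAt_const.mul
        ((a2.add (a3.mul continuousAt_const)).add (a4.mul continuousAt_const)))
    exact hcont.tendsto.mono_left nhdsWithin_le_nhds

end

section

variable {V W M : Type*} [NormedAddCommGroup V] [InnerProductSpace ℝ V] [FiniteDimensional ℝ V]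
  [NormedAddCommGroup W] [InnerProductSpace ℝ W] [FiniteDimensional ℝ W]
  [TopologicalSpace M] [ChartedSpace V M]
  [MeasurableSpace V] [BorelSpace V] [MeasurableSpace M] [BorelSpace M]

/-- the static inequality for data given by lists of integers -/
theorem static_HD [MeasurableSpace W] [BorelSpace W] [IsManifold 𝓘(ℝ, V) ∞ M] [CompactSpace M]
    [T2Space M] (hm : 3 ≤ finrank ℝ V) (hW : finrank ℝ W = finrank ℝ V + 2) {F : M → W}
    (hF : SphImm V F) (hmin : ∀ x n, IsUnitNormal V F x n → meanCurv V F x n = 0)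
    {N : M → W} (hNs : ContMDiff 𝓘(ℝ, V) 𝓘(ℝ, W) ∞ N) (hN : ∀ x, IsUnitNormal V F x (N x))
    (hinj : Injective F) {y Z e r : ℝ → ℝ} {lam : ℝ} (hlam : 0 ≤ lam)
    (hc : Cert (finrank ℝ V) y Z e r) (hl : CertLim (finrank ℝ V) y Z e r lam)
    (h0 : y 0 = ((finrank ℝ V : ℝ) - 1) / (finrank ℝ V - 2))
    (h1 : Z 0 = ((finrank ℝ V : ℝ) - 1) / (finrank ℝ V - 2)) (he : e 0 = 0)
    {d : HD} {kA kB : ℕ} (hz : d.zOk = true) (hd : d.dvOk kA kB = true)
    (hqA : 2 * kA < finrank ℝ V) (hqB : 2 * kB < finrank ℝ V + 4)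
    (hle : ∀ T ∈ Ioo (0 : ℝ) 1, ∀ k, SMH.Adm k →
      Hd' d T k ≤ FK (finrank ℝ V) T (y T) (e T) (r T) k) :
    Integrable (fun q => Hd d 1 (SM2.pr F N q)) ((volM V F).prod (volM V F)) ∧
      ∫ q, Hd d 1 (SM2.pr F N q) ∂((volM V F).prod (volM V F))
        + 2 * lam * (sphereVol (finrank ℝ V) * (volM V F).real univ)
      ≤ (volM V F).real univ ^ 2 + finrank ℝ V * r 0 * ‖∫ x, N x ∂(volM V F)‖ ^ 2 := by
  have hfin : IsFiniteMeasure (volM V F) := isFiniteMeasure_volM hF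
  obtain ⟨C, hE⟩ := embD_of_inj (by omega) hW hF hmin hNs hN hinj
  obtain ⟨g, hg, hdom, hlim⟩ := Hd_lim hE.toTwoG (by omega) hE.contact hd hqA hqB
  exact SMH.static_inj hm hW hF hmin hNs hN hinj hlam hc hl h0 h1 he (stat_Hd hz hle)
    (measurable_Hd d 1) hg hdom hlim

end

end Vale.Agent.P224.SH
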