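import Vale.Agent.P224.SH.HD6
import Vale.Agent.P224.SH.HD8
import Vale.Agent.P224.SH.HD10
import Vale.Agent.P224.SH.HD12
import Vale.Agent.P224.SH.HDlim
import Vale.Agent.P224.POS.LhsM

/-!
The static functions in dimensions six to twelve: checks and values at one.
-/

namespace Vale.Agent.P224.SH

open Vale.Agent.P224.UE Vale.Agent.P224.POS Vale.Agent.P224.POS.RM

lemma HD6_zOk : HD6.zOk = true := by decide
lemma HD8_zOk : HD8.zOk = true := by decide
lemma HD10_zOk : HD10.zOk = true := by decide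
lemma HD12_zOk : HD12.zOk = true := by decide

lemma HD6_dvOk : HD6.dvOk 2 4 = true := by decide
lemma HD8_dvOk : HD8.dvOk 3 5 = true := by decide
lemma HD10_dvOk : HD10.dvOk 4 6 = true := by decide
lemma HD12_dvOk : HD12.dvOk 5 7 = true := by decide

/-- equality up to zeros at the end -/
def eqz : List ℤ → List ℤ → Bool
  | [], k => k.all fun a => a == 0
  | a :: l, k => a == k.headD 0 && eqz l k.tail

lemma hor_head (k : List ℤ) (v : ℝ) : hor k v = (k.headD 0 : ℤ) + v * hor k.tail v := by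
  cases k with
  | nil => simp [hor_nil]
  | cons a k => rw [hor_cons]; rfl

lemma hor_all {k : List ℤ} (h : (k.all fun a => a == 0) = true) (v : ℝ) : hor k v = 0 := by
  induction k with
  | nil => rfl
  | cons a k ih =>
    simp only [List.all_cons, Bool.and_eq_true, beq_iff_eq] at h
    rw [hor_cons, ih h.2, h.1]
    simp

lemma hor_eqz {l k : List ℤ} (h : eqz l k = true) (v : ℝ) : hor l v = hor k v := by
  induction l generalizing k with
  | nil => rw [hor_all h, hor_nil]
  | cons a l ih =>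
    simp only [eqz, Bool.and_eq_true, beq_iff_eq] at h
    rw [hor_cons, ih h.2, hor_head k, h.1]

/-- the values at one -/
def sums (P : List (List ℤ)) : List ℤ := P.map List.sum

lemma pv_one (c : List ℤ) : pv c 1 = (c.sum : ℝ) := by
  induction c with
  | nil => simp [pv]
  | cons a l ih =>
    simp only [pv, ih, List.sum_cons]
    push_cast
    ring

lemma pv2_one (P : List (List ℤ)) (v : ℝ) : pv2 P 1 v = hor (sums P) v := by
  induction P with
  | nil => simp [pv2, sums, hor_nil]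
  | cons c P ih =>
    have : sums (c :: P) = c.sum :: sums P := rfl
    rw [this, hor_cons]
    simp only [pv2, ih, pv_one]

lemma hor_shift (j : ℕ) (l : List ℤ) (v : ℝ) :
    hor (List.replicate j 0 ++ l) v = v ^ j * hor l v := by
  induction j with
  | zero => simp
  | succ j ih =>
    rw [List.replicate_succ, List.cons_append, hor_cons, ih]
    push_cast
    ring

/-- the check of the values at one -/
def oneOk (d : HD) (K : ℕ) (lA l0 l1 l2 : List ℤ) : Bool :=
  decide (K ≤ d.KA + 2) && decide (K ≤ d.KB)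
    && eqz (sums d.A) (List.replicate (d.KA + 2 - K) 0 ++ lA)
    && eqz (sums d.B0) (List.replicate (d.KB - K) 0 ++ l0)
    && eqz (sums d.B1) (List.replicate (d.KB - K) 0 ++ l1)
    && eqz (sums d.B2) (List.replicate (d.KB - K) 0 ++ l2)

/-- the value at one -/
theorem Hd_one {h : HD} {DL K : ℕ} {lA l0 l1 l2 : List ℤ} (hD : h.D = DL)
    (hok : oneOk h K lA l0 l1 l2 = true) {d : R9} (hs : d 0 < 1) :
    Hd h 1 (d 0, d 1, d 2, d 3) = Lg DL K lA l0 l1 l2 d := by
  have hw : (1 - d 0) ≠ 0 := by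
    have : 0 < 1 - d 0 := by linarith
    exact this.ne'
  simp only [oneOk, Bool.and_eq_true, decide_eq_true_eq] at hok
  obtain ⟨⟨⟨⟨⟨h1, h2⟩, hA⟩, h3⟩, h4⟩, h5⟩ := hok
  obtain ⟨jA, hjA⟩ := Nat.exists_eq_add_of_le h1
  obtain ⟨jB, hjB⟩ := Nat.exists_eq_add_of_le h2
  have eA : cf h.KA h.D h.A 1 (d 0)
      = ((1 - d 0) ^ K)⁻¹ / DL * ((1 - d 0) ^ 2 * hor lA (1 - d 0)) := by
    unfold cf SM2.ker
    rw [one_mul, pv2_one, hor_eqz hA, hor_shift, hjA, Nat.add_sub_cancel_left, hD]
    have e : (1 - d 0) ^ h.KA * (1 - d 0) ^ 2 = (1 - d 0) ^ K * (1 - d 0) ^ jA := by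
      rw [← pow_add, ← pow_add, hjA]
    have e2 : ((1 - d 0) ^ h.KA)⁻¹ * (1 - d 0) ^ jA = ((1 - d 0) ^ K)⁻¹ * (1 - d 0) ^ 2 := by
      field_simp
      linear_combination -e
    push_cast
    linear_combination (hor lA (1 - d 0) / (DL : ℝ)) * e2
  have eB : ∀ (P : List (List ℤ)) (l : List ℤ),
      eqz (sums P) (List.replicate (h.KB - K) 0 ++ l) = true →
      cf h.KB h.D P 1 (d 0) = ((1 - d 0) ^ K)⁻¹ / DL * hor l (1 - d 0) := by
    intro P l hP
    unfold cf SM2.ker
    rw [one_mul, pv2_one, hor_eqz hP, hor_shift, hjB, Nat.add_sub_cancel_left, hD]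
    have e2 : ((1 - d 0) ^ (K + jB))⁻¹ * (1 - d 0) ^ jB = ((1 - d 0) ^ K)⁻¹ := by
      rw [pow_add]
      field_simp
    push_cast
    linear_combination (hor l (1 - d 0) / (DL : ℝ)) * e2
  unfold Hd Lg
  rw [eA, eB _ _ h3, eB _ _ h4, eB _ _ h5]
  ring

/-- the value at one -/
lemma Hd_HD6 {d : R9} (hs : d 0 < 1) : Hd HD6 1 (d 0, d 1, d 2, d 3)
    = Lg 10000 4 [710] [1428, 2493, 1913, 2668] [0, -370, 923] [539, 936] d :=
  Hd_one rfl (by decide) hs

/-- the value at one -/
lemma Hd_HD8 {d : R9} (hs : d 0 < 1) : Hd HD8 1 (d 0, d 1, d 2, d 3)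
    = Lg 10000 5 [269, 420, -45] [807, 1809, 2144, 2126, 2614] [0, -214, 236, 706]
      [401, 1003, 671] d :=
  Hd_one rfl (by decide) hs

/-- the value at one -/
lemma Hd_HD10 {d : R9} (hs : d 0 < 1) : Hd HD10 1 (d 0, d 1, d 2, d 3)
    = Lg 10000 6 [111, 314, 150] [446, 1220, 1842, 1995, 2387, 2506] [0, -111, -61, 563, 500]
      [279, 828, 1073, 495] d :=
  Hd_one rfl (by decide) hs

/-- the value at one -/
lemma Hd_HD12 {d : R9} (hs : d 0 < 1) : Hd HD12 1 (d 0, d 1, d 2, d 3)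
    = Lg 10000 7 [48, 169, 216, 82] [242, 783, 1414, 1766, 2177, 2349, 2479]
      [0, -60, -84, 225, 547, 409] [182, 638, 1094, 930, 419] d :=
  Hd_one rfl (by decide) hs

end Vale.Agent.P224.SH
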