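import Vale.Agent.P224.SH.HD14
import Vale.Agent.P224.SH.HD16
import Vale.Agent.P224.SH.HDM

/-!
The static functions in dimensions fourteen and sixteen: checks and values at one.
-/

namespace Vale.Agent.P224.SH

open Vale.Agent.P224.UE Vale.Agent.P224.POS Vale.Agent.P224.POS.RM

lemma HD14_zOk : HD14.zOk = true := by decide
lemma HD16_zOk : HD16.zOk = true := by decide

lemma HD14_dvOk : HD14.dvOk 6 8 = true := by decide
lemma HD16_dvOk : HD16.dvOk 7 9 = true := by decide

lemma HD14_one : oneOk HD14 8 [217, 882, 1605, 1322, 678]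
    [1300, 4841, 10196, 13985, 20185, 20324, 24463, 24351]
    [0, -329, -619, 372, 3895, 4818, 3529] [1136, 4660, 9295, 11268, 8526, 3474] = true := by decide

/-- the value at one -/
lemma Hd_HD14 {d : R9} (hs : d 0 < 1) : Hd HD14 1 (d 0, d 1, d 2, d 3)
    = Lg 100000 8 [217, 882, 1605, 1322, 678]
      [1300, 4841, 10196, 13985, 20185, 20324, 24463, 24351]
      [0, -329, -619, 372, 3895, 4818, 3529] [1136, 4660, 9295, 11268, 8526, 3474] d :=
  Hd_one rfl HD14_one hs

lemma HD16_one : oneOk HD16 9 [99, 457, 1018, 1237, 992, 491]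
    [690, 2909, 7000, 10057, 19116, 13649, 26676, 21743, 24523]
    [0, -173, -458, -96, 1921, 4008, 4586, 3023] [690, 3175, 7474, 10511, 11725, 7072, 3167] = true := by decide

/-- the value at one -/
lemma Hd_HD16 {d : R9} (hs : d 0 < 1) : Hd HD16 1 (d 0, d 1, d 2, d 3)
    = Lg 100000 9 [99, 457, 1018, 1237, 992, 491]
      [690, 2909, 7000, 10057, 19116, 13649, 26676, 21743, 24523]
      [0, -173, -458, -96, 1921, 4008, 4586, 3023] [690, 3175, 7474, 10511, 11725, 7072, 3167] d :=
  Hd_one rfl HD16_one hs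

end Vale.Agent.P224.SH
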