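import Vale.Agent.P224.SH.BD10
import Vale.Agent.P224.SH.HD10

/-!
The kernel checks of the static part in dimension 10.
-/

namespace Vale.Agent.P224.SH

/-- all the polynomials are nonnegative -/
theorem okK10 : OkK 10 HD10 BD10 KG10 where
  hD := by decide
  hN := by decide
  hKA := rfl
  hKB := rfl
  hA := by decide +kernel
  hB := by
    intro i hi e he r hr
    have he' : e = BD10.el ∨ e = BD10.eu := by simpa using he
    have hr' : r = BD10.rl ∨ r = BD10.ru := by simpa using hr
    interval_cases i <;> rcases he' with h | h <;> rcases hr' with h' | h' <;> subst h h'
    · decide +kernel
    · decide +kernel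
    · decide +kernel
    · decide +kernel
    · decide +kernel
    · decide +kernel
    · decide +kernel
    · decide +kernel
    · decide +kernel
    · decide +kernel
    · decide +kernel
    · decide +kernel
    · decide +kernel
    · decide +kernel
    · decide +kernel
    · decide +kernel

end Vale.Agent.P224.SH
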