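import Vale.Agent.P224.SH.Yser
import Mathlib.Analysis.Real.Pi.Bounds

/-!
Polynomial bounds of the coefficient function `y` in dimension 10.
-/

namespace Vale.Agent.P224.SH

open MeasureTheory Set Filter Function Real Vale.Agent.P224.SM2
open scoped Topology

/-- a polynomial bound -/
def YL10 : List ℤ := [10797, 46905, 47988, 10232]

/-- the series coefficients -/
def QYL10 : List ℤ := [32213589, 14093445, 7550059, 4541832, 2952190, 2029630, 1456325, 1080866,
    824506, 643409]

/-- lower bound of `y` -/
theorem y10_low {T : ℝ} (hT : T ∈ Icc (0 : ℝ) 1) :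
    (1 - T) ^ 4 * (pv YL10 T / 10000) ≤ yF 5 (315 / 16) T := by
  have h := yF_low (a := 5) (by norm_num) 4 (by norm_num) 3500000000 315 16 10000 128854359 QYL10 YL10
    (by norm_num) (by norm_num) (by norm_num) (by norm_num)
    (by
      rw [WI_four_four]
      have := Real.pi_gt_d6
      push_cast
      linarith)
    (by decide +kernel) (N := 4) (by norm_num) (by decide +kernel) hT
  push_cast at h
  exact h

/-- a polynomial bound -/
def YU10 : List ℤ := [11251, 46221, 47634, 10890]

/-- the series coefficients -/
def QYU10 : List ℤ := [32213601, 14093451, 7550064, 4541836, 2952194, 2029634, 1456329, 1080870,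
    824510, 643413]

/-- upper bound of `y` -/
theorem y10_up {T : ℝ} (hT : T ∈ Icc (0 : ℝ) 1) :
    yF 5 (315 / 16) T ≤ (1 - T) ^ 4 * (pv YU10 T / 10000) := by
  have h := yF_up (a := 5) (by norm_num) 4 (by norm_num) 3500000000 315 16 10000 128854401 200000000 QYU10 YU10
    (by norm_num) (by norm_num) (by norm_num) (by norm_num)
    (by
      rw [WI_four_four]
      have := Real.pi_lt_d6
      push_cast
      linarith)
    (by decide +kernel)
    (by
      rw [II_five_zero]
      push_cast
      norm_num)
    (N := 4) (by norm_num) (by decide +kernel) hT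
  push_cast at h
  exact h

/-- a polynomial bound -/
def YV10 : List ℤ := [1125492, 4475752, 5989620, -4865336, 17114300, -28714224, 27741924,
    -14363056, 3093061]

/-- the series coefficients -/
def QYV10 : List ℤ := [32213601, 14093451, 7550064, 4541836, 2952194, 2029634, 1456329, 1080870,
    824510, 643413, 511806, 413844, 339409, 281831, 236590, 200547, 171477, 147770, 128243,
    112013]

/-- upper bound of `y` -/
theorem y10_up0 {T : ℝ} (hT : T ∈ Icc (0 : ℝ) 1) :
    yF 5 (315 / 16) T ≤ (1 - T) ^ 4 * (pv YV10 T / 1000000) := by
  have h := yF_up (a := 5) (by norm_num) 4 (by norm_num) 3500000000 315 16 1000000 128854401 200000000 QYV10 YV10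
    (by norm_num) (by norm_num) (by norm_num) (by norm_num)
    (by
      rw [WI_four_four]
      have := Real.pi_lt_d6
      push_cast
      linarith)
    (by decide +kernel)
    (by
      rw [II_five_zero]
      push_cast
      norm_num)
    (N := 2) (by norm_num) (by decide +kernel) hT
  push_cast at h
  exact h

end Vale.Agent.P224.SH
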