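import Vale.Agent.P224.SH.HD

/-!
The static function in dimension six.
-/

namespace Vale.Agent.P224.SH

/-- the numbers of the static function in dimension six -/
def HD6 : HD where
  D := 10000
  KA := 6
  KB := 8
  A := [[0, 0, -3788, 40304, -156084, 320496, -403146, 330792, -177520, 57448, -8502],
    [0, 0, 28182, -156818, 364860, -450740, 307193, -105291, 11297, 1317],
    [0, 0, -42607, 228762, -485709, 520184, -292682, 79480, -7428],
    [0, 0, 44807, -200707, 354902, -302842, 121192, -17352],
    [0, 0, -23602, 103436, -164436, 115816, -30504],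
    [0, 0, 5923, -25183, 40002, -28130, 7372, 16]]
  B0 := [[0, 3612, -19896, 41445, -34747, -3962, 28506, -19271, 4313],
    [0, -14672, 72969, -139644, 121914, -37488, -9003, 5924],
    [0, 22903, -92336, 165910, -158371, 73841, -11947],
    [0, -10060, 43174, -53976, 24406, -3544],
    [0, 5400, -9579, 10512, -4905],
    [0, 4274, -7653, 8733, -2861],
    [0, 1533, 3312, -4641, 1709],
    [0, 2940, -930, 1059, -401]]
  B1 := [[0, 0, -3036, 24068, -75418, 121712, -107768, 49948, -9506],
    [0, 0, 8167, -51751, 125548, -147808, 85141, -19297],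
    [0, 0, 3832, -17454, 29442, -21850, 6030],
    [0, 0, 4059, -15141, 18119, -7037],
    [0, 0, 2440, -5388, 2401, 547],
    [0, 0, 2458, -3532, 704],
    [0, 0, 525, 862, -464],
    [0, 0, 132, -362, 324, -94]]
  B2 := [[0, 0, 0, 20334, -84954, 136336, -102484, 33966, -3058, -140],
    [0, 0, 0, 12831, -32583, 13808, 25764, -26775, 6955],
    [0, 0, 0, 8212, -19724, 15149, -3974, 337],
    [0, 0, 0, 5603, -8591, 2571, 417],
    [0, 0, 0, 3106, -2924, 357],
    [0, 0, 0, 360, 1194, -618],
    [0, 0, 0, 367, -923, 734, -178],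
    [0, 0, 0, -97, 277, -266, 86]]

end Vale.Agent.P224.SH
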