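import Vale.Agent.P224.SH.Yser
import Mathlib.Analysis.Real.Pi.Bounds

/-!
Polynomial bounds of the coefficient function `y` in dimension 6.
-/

namespace Vale.Agent.P224.SH

open MeasureTheory Set Filter Function Real Vale.Agent.P224.SM2
open scoped Topology

/-- a polynomial bound -/
def YL6 : List ℤ := [11981, 26290, -23160, 26800, -16670, 4208]

/-- the series coefficients -/
def QYL6 : List ℤ := [147262125, 69029121, 40266987, 26425210, 18686398, 13917473, 10769473,
    8581923, 6999901, 5818667, 4913314, 4204100, 3638163, 3179332, 2802175, 2488389, 2224527,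
    2000529, 1808748, 1643288]

/-- lower bound of `y` -/
theorem y6_low {T : ℝ} (hT : T ∈ Icc (0 : ℝ) 1) :
    (1 - T) ^ 2 * (pv YL6 T / 10000) ≤ yF 3 (15 / 4) T := by
  have h := yF_low (a := 3) (by norm_num) 2 (by norm_num) 3000000000 15 4 10000 589048500 QYL6 YL6
    (by norm_num) (by norm_num) (by norm_num) (by norm_num)
    (by
      rw [WI_two_two]
      have := Real.pi_gt_d6
      push_cast
      linarith)
    (by decide +kernel) (N := 4) (by norm_num) (by decide +kernel) hT
  push_cast at h
  exact h

/-- a polynomial bound -/
def YU6 : List ℤ := [12501, 26285, -34500, 59550, -51365, 17018]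

/-- the series coefficients -/
def QYU6 : List ℤ := [147262172, 69029144, 40267001, 26425220, 18686406, 13917480, 10769479,
    8581929, 6999907, 5818673, 4913321, 4204107, 3638170, 3179339, 2802183, 2488397, 2224535,
    2000537, 1808757, 1643297]

/-- upper bound of `y` -/
theorem y6_up {T : ℝ} (hT : T ∈ Icc (0 : ℝ) 1) :
    yF 3 (15 / 4) T ≤ (1 - T) ^ 2 * (pv YU6 T / 10000) := by
  have h := yF_up (a := 3) (by norm_num) 2 (by norm_num) 3000000000 15 4 10000 589048688 1000000000 QYU6 YU6
    (by norm_num) (by norm_num) (by norm_num) (by norm_num)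
    (by
      rw [WI_two_two]
      have := Real.pi_lt_d6
      push_cast
      linarith)
    (by decide +kernel)
    (by
      rw [II_three_zero]
      push_cast
      norm_num)
    (N := 4) (by norm_num) (by decide +kernel) hT
  push_cast at h
  exact h

/-- a polynomial bound -/
def YV6 : List ℤ := [1250235, 2482272, -754684, -13379688, 64032430, -134040760, 148649004,
    -85215776, 19923552]

/-- the series coefficients -/
def QYV6 : List ℤ := [147262172, 69029144, 40267001, 26425220, 18686406, 13917480, 10769479,
    8581929, 6999907, 5818673, 4913321, 4204107, 3638170, 3179339, 2802183, 2488397, 2224535,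
    2000537, 1808757, 1643297]

/-- upper bound of `y` -/
theorem y6_up0 {T : ℝ} (hT : T ∈ Icc (0 : ℝ) 1) :
    yF 3 (15 / 4) T ≤ (1 - T) ^ 2 * (pv YV6 T / 1000000) := by
  have h := yF_up (a := 3) (by norm_num) 2 (by norm_num) 3000000000 15 4 1000000 589048688 1000000000 QYV6 YV6
    (by norm_num) (by norm_num) (by norm_num) (by norm_num)
    (by
      rw [WI_two_two]
      have := Real.pi_lt_d6
      push_cast
      linarith)
    (by decide +kernel)
    (by
      rw [II_three_zero]
      push_cast
      norm_num)
    (N := 4) (by norm_num) (by decide +kernel) hT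
  push_cast at h
  exact h

end Vale.Agent.P224.SH
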