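import Vale.Agent.P224.SH.HD4
import Vale.Agent.P224.SH.HDlim
import Vale.Agent.P224.POS.Lhs

/-!
The static function in dimension four: checks and value at one.
-/

namespace Vale.Agent.P224.SH

open Vale.Agent.P224.UE Vale.Agent.P224.POS

lemma HD4_zOk : HD4.zOk = true := by decide

lemma HD4_dvOk : HD4.dvOk 1 3 = true := by decide

/-- the value at one -/
lemma Hd_HD4 {d : R9} (hs : d 0 < 1) : Hd HD4 1 (d 0, d 1, d 2, d 3) = Lr d := by
  have h : (1 - d 0) ≠ 0 := by
    have : 0 < 1 - d 0 := by linarith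
    exact this.ne'
  unfold Lr Hd cf HD4 SM2.ker
  simp only [pv2, pv, one_mul]
  push_cast
  generalize hw : 1 - d 0 = w at h ⊢
  have hd : d 0 = 1 - w := by linarith
  rw [hd]
  field_simp
  ring

end Vale.Agent.P224.SH
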