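import Vale.Agent.P224.SH.Chk4
import Vale.Agent.P224.SH.HD4b
import Vale.Agent.P224.SMH.E4b

/-!
The static part in dimension four.
-/

namespace Vale.Agent.P224.SH

open Set Vale.Agent.P224.SMH

/-- the bounds of the coefficient functions in dimension four -/
theorem bds4 {T : ℝ} (hT : T ∈ Ioo (0 : ℝ) 1) : Bds BD4 T (y4 T) (e4 T) (r4 T) where
  y := by
    simp only [BD4, pv, y4]
    push_cast
    exact le_of_eq (by ring)
  el := by
    have h := e4_lower hT
    simp only [BD4, pv]
    push_cast
    linarith
  eu := by
    have h := e4_upper hT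
    simp only [BD4, pv]
    push_cast
    linarith
  rl := by
    have h := r4_lower hT
    simp only [BD4, pv]
    push_cast
    linarith
  ru := by
    have h := r4_upper hT
    simp only [BD4, pv]
    push_cast
    linarith

/-- the static part in dimension four -/
theorem stat4 : SMH.Stat 4 y4 e4 r4 (Hd HD4) (Hd' HD4) :=
  stat_Hd HD4_zOk fun _ hT _ hk => le_FK ok4 hT (bds4 hT) hk hk.det2

end Vale.Agent.P224.SH
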