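import Vale.Agent.P224.SH.Fast

/-!
The numbers of the bounds in dimension 10.
-/

namespace Vale.Agent.P224.SH

/-- the bounds in dimension 10 -/
def BD10 : BD where
  N := 10000
  y := [10797, 3717, -74850, 56522, 70177, -83655, 7060, 10232]
  el := [0, 1329, 1182, -35907, 116252, -177111, 148326, -68317, 15432, -1242, 56]
  eu := [0, 1409, 495, -33198, 109856, -167232, 138066, -61210, 12288, -441, -33]
  rl := [512, -1329, -2634, 15048, -25062, 20298, -7926, 984, 102, 7]
  ru := [523, -1413, -2325, 14331, -23931, 19077, -7047, 585, 204, -4]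

/-- the parameters of the check -/
def KG10 : KG where
  nA := 15
  kA := 10
  nB := 17
  kB := 14
  a := 256

end Vale.Agent.P224.SH
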