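import Vale.Agent.P224.SH.Fast

/-!
The numbers of the bounds in dimension 12.
-/

namespace Vale.Agent.P224.SH

/-- the bounds in dimension 12 -/
def BD12 : BD where
  N := 10000
  y := [11000, 0, -66000, 0, 231000, -231000, 0, 66000, 0, -11000]
  el := [0, 1026, 1518, -30759, 84760, -75040, -57036, 190582, -185896, 90630, -21650, 1865]
  eu := [0, 1101, 735, -26991, 73864, -54250, -84210, 215110, -200944, 96621, -23045, 2009]
  rl := [422, -1025, -2868, 13314, -15414, -3696, 24990, -24642, 10776, -1871, 14]
  ru := [431, -1106, -2508, 12293, -13433, -6363, 27461, -26177, 11382, -2007, 27]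

/-- the parameters of the check -/
def KG12 : KG where
  nA := 16
  kA := 12
  nB := 19
  kB := 16
  a := 256

end Vale.Agent.P224.SH
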