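import Vale.Agent.P224.SH.Fast

/-!
The numbers of the bounds in dimension 14.
-/

namespace Vale.Agent.P224.SH

/-- the bounds in dimension 14 -/
def BD14 : BD where
  N := 100000
  y := [107382, -16496, -480558, -1528976, 7599282, -11557716, 10480846, -9406632, 8248536, -4385732,
    940064]
  el := [0, 8801, 1848, -132810, -55340, 2100356, -6453640, 9918272, -8986336, 4906685, -1526736,
    232034, -15700, 2566]
  eu := [0, 9091, -464, -124958, -67692, 2097408, -6394344, 9774576, -8788176, 4729167, -1421608,
    192278, -7012, 1734]
  rl := [3582, -8792, -22412, 76428, 70021, -557720, 982156, -859136, 386932, -68336, -1752, -2604,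
    1633]
  ru := [3631, -9104, -21530, 74988, 70984, -555272, 972664, -843008, 370507, -57864, -5814, -1740,
    1558]

/-- the parameters of the check -/
def KG14 : KG where
  nA := 19
  kA := 14
  nB := 21
  kB := 18
  a := 256

end Vale.Agent.P224.SH
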