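import Vale.Agent.P224.SH.Fast

/-!
The numbers of the bounds in dimension 16.
-/

namespace Vale.Agent.P224.SH

/-- the bounds in dimension 16 -/
def BD16 : BD where
  N := 70000
  y := [75000, 0, -585000, 0, 2145000, 0, -6435000, 6435000, 0, -2145000, 0, 585000, 0, -75000]
  el := [0, 5355, -1295, -54264, -205576, 1853439, -4727331, 5507544, -1628088, -3683799, 5346411,
    -3332224, 1063776, -145523, 1575]
  eu := [0, 5481, -3213, -39564, -275716, 2078979, -5239143, 6351240, -2654568, -2758329, 4733421,
    -3041388, 969948, -127043, -105]
  rl := [2184, -5348, -14112, 35420, 126133, -564165, 866964, -591948, 64638, 115542, 14756, -90216,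
    48685, -8533]
  ru := [2212, -5712, -11340, 21476, 173551, -676683, 1058820, -831684, 285894, -34426, 87696, -114408,
    53599, -8995]

/-- the parameters of the check -/
def KG16 : KG where
  nA := 21
  kA := 16
  nB := 23
  kB := 20
  a := 256

end Vale.Agent.P224.SH
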