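import Vale.Agent.P224.SH.HD

/-!
The static function in dimension four.
-/

namespace Vale.Agent.P224.SH

/-- the numbers of the static function in dimension four -/
def HD4 : HD where
  D := 10000
  KA := 4
  KB := 6
  A := [[0, 0, 68, -1434, 12093, -32192, 37338, -19710, 3837],
    [0, 0, 14452, -54341, 74944, -41446, 3164, 3227],
    [0, 0, 9976, -19378, 5715, 8660, -4973],
    [0, 0, -23580, 81894, -85611, 29154],
    [0, 0, 8665, -50292, 60462, -21335],
    [0, 0, 5520, 3534, -13098, 5674],
    [0, 0, -2982, 3282, -201, -469]]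
  B0 := [[0, -1888, 5216, -1759, -7139, 8131, -2561],
    [0, 2973, -12946, 20860, -14774, 3887],
    [0, 2651, 1, -535, -2117],
    [0, 2774, -616, 314],
    [0, -1595, 7868, -3811],
    [0, 6530, -8792, 4419],
    [0, -1012, 2398, -1268]]
  B1 := [[0, 0, 4233, -21291, 43044, -43716, 22299, -4569],
    [0, 0, 3586, -16214, 27000, -19702, 5330],
    [0, 0, 1642, -6016, 7043, -2669],
    [0, 0, 1385, -3092, 1686],
    [0, 0, 537, -644, -43],
    [0, 0, 2103, -2254, 821],
    [0, 0, -853, 1130, -424]]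
  B2 := [[0, 0, 0, 6789, -18593, 12834, 5166, -8407, 2211],
    [0, 0, 0, 8517, -24520, 25902, -12312, 2413],
    [0, 0, 0, 3828, -4208, -1058, 1438],
    [0, 0, 0, -2093, 6026, -3263],
    [0, 0, 0, 2805, -5032, 2449],
    [0, 0, 0, -498, 878, -410],
    [0, 0, 0, -182, 302, -52, -68]]

end Vale.Agent.P224.SH
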