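import Vale.Agent.P224.SH.Le
import Vale.Agent.P224.SH.HD4

/-!
The numbers of the bounds in dimension four.
-/

namespace Vale.Agent.P224.SH

/-- the bounds: `y = (3/2)(1 - T)`, `e` between `T (1 - T) ^ 3` times cubics, `r` between
`(1 - T) ^ 3` times cubics -/
def BD4 : BD where
  N := 1000
  y := [1500, -1500]
  el := [0, 610, -2772, 5652, -6849, 5205, -2271, 425]
  eu := [0, 754, -3813, 8805, -11918, 9744, -4413, 841]
  rl := [136, -582, 1101, -1245, 909, -393, 74]
  ru := [161, -759, 1647, -2155, 1758, -810, 158]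

/-- the degrees -/
def DG4 : DG where
  n := 8
  JA := 6
  JB := 6
  E := 7
  a1 := 0
  a2 := 2
  b1 := 0
  b2 := 0

end Vale.Agent.P224.SH
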