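import Vale.Agent.P224.SH.Fast

/-!
The numbers of the bounds in dimension 6.
-/

namespace Vale.Agent.P224.SH

/-- the bounds in dimension 6 -/
def BD6 : BD where
  N := 10000
  y := [11981, 2328, -63759, 99410, -93430, 64348, -25086, 4208]
  el := [0, 2992, -4773, -35158, 168892, -366378, 489835, -426910, 236370, -75450, 10580]
  eu := [0, 3332, -8938, -12268, 96272, -220858, 299127, -263348, 147722, -47858, 6817]
  rl := [893, -2992, 848, 12598, -33792, 48151, -43784, 25216, -8349, 1211]
  ru := [926, -3379, 3036, 5266, -18194, 26502, -24208, 14082, -4728, 697]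

/-- the parameters of the check -/
def KG6 : KG where
  nA := 13
  kA := 7
  nB := 13
  kB := 10
  a := 256

end Vale.Agent.P224.SH
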