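import Vale.Agent.P224.SH.Fast

/-!
The numbers of the bounds in dimension 8.
-/

namespace Vale.Agent.P224.SH

/-- the bounds in dimension 8 -/
def BD8 : BD where
  N := 30000
  y := [35000, 0, -175000, 175000, 0, -35000]
  el := [0, 5826, -5595, -78531, 279909, -433575, 375399, -191505, 55311, -7239]
  eu := [0, 6297, -9741, -62310, 243417, -382290, 329493, -166014, 47295, -6147]
  rl := [1950, -5826, -2676, 33567, -60285, 53700, -27174, 7791, -1047]
  ru := [2022, -6429, -327, 28155, -52395, 46353, -22941, 6417, -855]

/-- the parameters of the check -/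
def KG8 : KG where
  nA := 12
  kA := 8
  nB := 15
  kB := 12
  a := 256

end Vale.Agent.P224.SH
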