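import Vale.Agent.P224.SH.Le

/-!
A fast kernel check of the nonnegativity of a polynomial in two variables on the unit square: the
coefficients in the Bernstein basis are read off from one large integer, the resulting identity is
verified by evaluation at large integers.
-/

namespace Vale.Agent.P224.SH

open Vale.Agent.P224.POS Vale.Agent.P224.SMH
open Vale.Agent.P224.SM2 hiding ker

noncomputable section

/-! ### the sum in the Bernstein basis -/

/-- `1 - T` -/
def xQ : PE := PE.sub (PE.c 1) (PE.v 0)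
/-- `1 - lam` -/
def zQ : PE := PE.sub (PE.c 1) (PE.v 1)

/-- `sum_i L_i T ^ i (1 - T) ^ (n - i)` -/
def bRow (n : Nat) (L : List Nat) : PE :=
  List.rec (motive := fun _ => Nat → PE) (fun _ => PE.c 0)
    (fun a _ ih n => PE.add (PE.mul (PE.c (Int.ofNat a)) (PE.pow xQ n))
      (PE.mul (PE.v 0) (ih (Nat.sub n 1)))) L n

/-- `sum_j (bRow n L_j) lam ^ j (1 - lam) ^ (k - j)` -/
def bPE (n k : Nat) (Ls : List (List Nat)) : PE :=
  List.rec (motive := fun _ => Nat → PE) (fun _ => PE.c 0)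
    (fun L _ ih k => PE.add (PE.mul (bRow n L) (PE.pow zQ k))
      (PE.mul (PE.v 1) (ih (Nat.sub k 1)))) Ls k

/-! ### the digits (not verified) -/

/-- product with degrees -/
def mulH (x y : Int × (Nat × Nat)) : Int × (Nat × Nat) :=
  Prod.rec (motive := fun _ => Int × (Nat × Nat)) (fun a da =>
    Prod.rec (motive := fun _ => Int × (Nat × Nat)) (fun a1 a2 =>
      Prod.rec (motive := fun _ => Int × (Nat × Nat)) (fun b db =>
        Prod.rec (motive := fun _ => Int × (Nat × Nat)) (fun b1 b2 =>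
          Bool.rec (motive := fun _ => Int × (Nat × Nat))
            (Bool.rec (motive := fun _ => Int × (Nat × Nat))
              (Int.mul a b, (Nat.add a1 b1, Nat.add a2 b2)) (0, (0, 0)) (HP.isZ b))
            (0, (0, 0)) (HP.isZ a)) db) y) da) x

/-- combination with degrees -/
def addH (f : Int → Int → Int) (U W : Nat) (x y : Int × (Nat × Nat)) : Int × (Nat × Nat) :=
  Prod.rec (motive := fun _ => Int × (Nat × Nat)) (fun a da =>
    Prod.rec (motive := fun _ => Int × (Nat × Nat)) (fun a1 a2 =>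
      Prod.rec (motive := fun _ => Int × (Nat × Nat)) (fun b db =>
        Prod.rec (motive := fun _ => Int × (Nat × Nat)) (fun b1 b2 =>
          (f (Int.mul a (Int.ofNat (Nat.mul (Nat.pow U (Nat.sub b1 a1))
              (Nat.pow W (Nat.sub b2 a2)))))
            (Int.mul b (Int.ofNat (Nat.mul (Nat.pow U (Nat.sub a1 b1))
              (Nat.pow W (Nat.sub a2 b2))))),
            (Nat.add a1 (Nat.sub b1 a1), Nat.add a2 (Nat.sub b2 a2)))) db) y) da) x

/-- homogeneous value -/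
def evH (B1 B2 : Nat) (e : PE) : Int × (Nat × Nat) :=
  PE.rec (motive := fun _ => Int × (Nat × Nat)) (fun n => (n, (0, 0)))
    (fun i => Nat.rec (motive := fun _ => Int × (Nat × Nat)) (Int.ofNat B1, (1, 0))
      (fun _ _ => (Int.ofNat B2, (0, 1))) i)
    (fun _ _ x y => addH Int.add (Nat.add B1 1) (Nat.add B2 1) x y)
    (fun _ _ x y => addH Int.sub (Nat.add B1 1) (Nat.add B2 1) x y)
    (fun _ _ x y => mulH x y)
    (fun _ n x => Nat.rec (motive := fun _ => Int × (Nat × Nat)) (1, (0, 0))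
      (fun _ ih => mulH ih x) n) e

/-- the number containing the coefficients -/
def numH (B1 B2 n k : Nat) (e : PE) : Nat :=
  Prod.rec (motive := fun _ => Nat) (fun a da => Prod.rec (motive := fun _ => Nat)
    (fun a1 a2 => Nat.mul (Int.natAbs a) (Nat.mul (Nat.pow (Nat.add B1 1) (Nat.sub n a1))
      (Nat.pow (Nat.add B2 1) (Nat.sub k a2)))) da) (evH B1 B2 e)

/-- digits -/
def dg1 (B n N : Nat) : List Nat :=
  Nat.rec (motive := fun _ => Nat → List Nat) (fun _ => [])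
    (fun _ ih N => List.cons (Nat.mod N B) (ih (Nat.div N B))) n N

/-- digits -/
def dg2 (B1 B2 n k N : Nat) : List (List Nat) :=
  Nat.rec (motive := fun _ => Nat → List (List Nat)) (fun _ => [])
    (fun _ ih N => List.cons (dg1 B1 (Nat.add n 1) (Nat.mod N B2)) (ih (Nat.div N B2)))
    (Nat.add k 1) N

/-- the check -/
def posK (n k a : Nat) (e : PE) : Bool :=
  chk [Nat.pow 2 a, Nat.pow 2 (Nat.mul a (Nat.add n 1))]
    (PE.sub e (bPE n k (dg2 (Nat.pow 2 a) (Nat.pow 2 (Nat.mul a (Nat.add n 1))) n k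
      (numH (Nat.pow 2 a) (Nat.pow 2 (Nat.mul a (Nat.add n 1))) n k e))))

/-- the values of the variables: `T`, `(1 - s) / 2` -/
def gv (T s : ℝ) (i : ℕ) : ℝ := if i = 0 then T else if i = 1 then (1 - s) / 2 else 0

section

variable {T s : ℝ}

@[simp] lemma gv0 : gv T s 0 = T := rfl
@[simp] lemma gv1 : gv T s 1 = (1 - s) / 2 := rfl

lemma bRow_nonneg (hT : T ∈ Set.Icc (0 : ℝ) 1) (n : ℕ) (L : List ℕ) :
    0 ≤ PE.ev (gv T s) (bRow n L) := by
  induction L generalizing n with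
  | nil => simp [bRow]
  | cons a L ih =>
    have e : bRow n (a :: L) = PE.add (PE.mul (PE.c (Int.ofNat a)) (PE.pow xQ n))
      (PE.mul (PE.v 0) (bRow (n - 1) L)) := rfl
    rw [e]
    simp only [PE.ev_add, PE.ev_mul, PE.ev_c, PE.ev_pow, PE.ev_v, xQ, PE.ev_sub, gv0,
      Int.ofNat_eq_natCast, Int.cast_natCast, Int.cast_one]
    have h1 : 0 ≤ 1 - T := by linarith [hT.2]
    have h2 := ih (n - 1)
    have h3 := hT.1
    positivity

lemma bPE_nonneg (hT : T ∈ Set.Icc (0 : ℝ) 1) (hs : s ∈ Set.Icc (-1 : ℝ) 1) (n k : ℕ)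
    (L : List (List ℕ)) : 0 ≤ PE.ev (gv T s) (bPE n k L) := by
  induction L generalizing k with
  | nil => simp [bPE]
  | cons a L ih =>
    have e : bPE n k (a :: L) = PE.add (PE.mul (bRow n a) (PE.pow zQ k))
      (PE.mul (PE.v 1) (bPE n (k - 1) L)) := rfl
    rw [e]
    simp only [PE.ev_add, PE.ev_mul, PE.ev_c, PE.ev_pow, PE.ev_v, zQ, PE.ev_sub, gv1,
      Int.cast_one]
    have h0 := bRow_nonneg (s := s) hT n a
    have h1 : 0 ≤ 1 - (1 - s) / 2 := by linarith [hs.1]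
    have h2 := ih (k - 1)
    have h3 : 0 ≤ (1 - s) / 2 := by linarith [hs.2]
    positivity

/-- Verified nonnegativity on the square. -/
theorem nonneg_of_posK {n k a : ℕ} {e : PE} (h : posK n k a e = true)
    (hT : T ∈ Set.Icc (0 : ℝ) 1) (hs : s ∈ Set.Icc (-1 : ℝ) 1) : 0 ≤ PE.ev (gv T s) e := by
  have h1 := ev_eq_of_chk h (gv T s) (fun i hi => by
    have h2 : 12 ≤ i := hi
    unfold gv
    rw [if_neg (by omega), if_neg (by omega)])
  rw [h1]
  exact bPE_nonneg hT hs n k _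

end

/-! ### the polynomials -/

/-- `1 - T s` -/
def vQ : PE := PE.add xQ (PE.mul (PE.c 2) (PE.mul (PE.v 0) (PE.v 1)))
/-- `s` -/
def sQ : PE := PE.sub (PE.c 1) (PE.mul (PE.c 2) (PE.v 1))

/-- `pv` -/
def hQ (l : List Int) : PE :=
  List.rec (motive := fun _ => PE) (PE.c 0)
    (fun a _ ih => PE.add (PE.c a) (PE.mul (PE.v 0) ih)) l

/-- `sum_i (k + i) l_i T ^ i` -/
def hw (l : List Int) (k : Int) : PE :=
  List.rec (motive := fun _ => Int → PE) (fun _ => PE.c 0)
    (fun a _ ih k => PE.add (PE.c (Int.mul k a)) (PE.mul (PE.v 0) (ih (Int.add k 1)))) l k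

/-- `pv'` -/
def hQ' (l : List Int) : PE :=
  List.rec (motive := fun _ => PE) (PE.c 0) (fun _ l _ => hw l 1) l

/-- the numerator of `cf'` over `v ^ (K + 1)` -/
def dQ (K : Int) (P : List (List Int)) : PE :=
  List.rec (motive := fun _ => Int → PE) (fun _ => PE.c 0)
    (fun l _ ih K => PE.add (PE.add (PE.mul (PE.mul (PE.c K) sQ) (hQ l)) (PE.mul vQ (hQ' l)))
      (PE.mul vQ (ih (Int.sub K 1)))) P K

section

variable {T s : ℝ}

@[simp] lemma evg_xQ : PE.ev (gv T s) xQ = 1 - T := by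
  simp [xQ]

@[simp] lemma evg_vQ : PE.ev (gv T s) vQ = 1 - T * s := by
  simp [vQ]
  ring

@[simp] lemma evg_sQ : PE.ev (gv T s) sQ = s := by
  simp [sQ]
  ring

@[simp] lemma evg_hQ (l : List Int) : PE.ev (gv T s) (hQ l) = pv l T := by
  induction l with
  | nil => simp [hQ, pv]
  | cons a l ih =>
    have e : hQ (a :: l) = PE.add (PE.c a) (PE.mul (PE.v 0) (hQ l)) := rfl
    rw [e]
    simp [ih, pv]

lemma evg_hw (l : List Int) (k : Int) :
    PE.ev (gv T s) (hw l k) = k * pv l T + T * pv' l T := by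
  induction l generalizing k with
  | nil => simp [hw, pv, pv']
  | cons a l ih =>
    have e : hw (a :: l) k = PE.add (PE.c (k * a)) (PE.mul (PE.v 0) (hw l (k + 1))) := rfl
    rw [e]
    simp only [PE.ev_add, PE.ev_c, PE.ev_mul, PE.ev_v, gv0, ih, pv, pv']
    push_cast
    ring

@[simp] lemma evg_hQ' (l : List Int) : PE.ev (gv T s) (hQ' l) = pv' l T := by
  cases l with
  | nil => simp [hQ', pv']
  | cons a l =>
    have e : hQ' (a :: l) = hw l 1 := rfl
    rw [e, evg_hw]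
    simp [pv']

lemma evg_dQ (K : Int) (P : List (List Int)) : PE.ev (gv T s) (dQ K P)
    = K * s * pv2 P T (1 - T * s)
      + (1 - T * s) * (pvT P T (1 - T * s) - s * pvV P T (1 - T * s)) := by
  induction P generalizing K with
  | nil => simp [dQ, pv2, pvT, pvV]
  | cons l P ih =>
    have e : dQ K (l :: P) = PE.add (PE.add (PE.mul (PE.mul (PE.c K) sQ) (hQ l))
      (PE.mul vQ (hQ' l))) (PE.mul vQ (dQ (K - 1) P)) := rfl
    rw [e]
    simp only [PE.ev_add, PE.ev_c, PE.ev_mul, evg_sQ, evg_vQ, evg_hQ, evg_hQ', ih, pv2, pvT, pvV]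
    push_cast
    ring

lemma cf'_eq' (K : ℕ) (D : ℤ) (P : List (List ℤ)) (h : 1 - T * s ≠ 0) :
    cf' K D P T s = SM2.ker T (K + 1) s * PE.ev (gv T s) (dQ (Int.ofNat K) P) / D := by
  have h1 := ker_succ_div T s K 1
  rw [pow_one, eq_div_iff h] at h1
  unfold cf'
  rw [evg_dQ, ← h1]
  simp only [Int.ofNat_eq_natCast, Int.cast_natCast]
  ring

end

/-- the polynomial of the coefficient of `(c - s) ^ 2` -/
def tA (m : Nat) (d : HD) (b : BD) : PE :=
  PE.sub (PE.mul (PE.c (Int.mul d.D (Int.ofNat m))) (hQ b.el))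
    (PE.mul (PE.c (Int.ofNat b.N)) (dQ (Int.ofNat m) d.A))

/-- the bracket of the defect -/
def brQ (m : Nat) (y e r c q : PE) : PE :=
  PE.mul (PE.c (Int.ofNat m)) (PE.add (PE.add
    (PE.mul (PE.add (PE.mul (PE.v 0) y) (PE.mul (PE.c (Int.ofNat m)) r)) (PE.mul vQ vQ))
    (PE.mul (PE.mul (PE.c (Int.ofNat (Nat.add m 1)))
      (PE.add (PE.mul (PE.c 2) (PE.mul (PE.mul (PE.v 0) (PE.v 0)) r))
        (PE.mul c (PE.mul (PE.v 0) (PE.sub (PE.mul (PE.c 2) r) e))))) vQ))
    (PE.mul (PE.c (Int.ofNat (Nat.mul (Nat.add m 1) (Nat.add m 2))))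
      (PE.mul (PE.mul (PE.mul (PE.v 0) (PE.v 0)) r) q)))

/-- the bracket of the derivative of the static part -/
def lhQ (m : Nat) (d : HD) (c q : PE) : PE :=
  PE.add (PE.add (dQ (Int.ofNat (Nat.add m 2)) d.B0)
    (PE.mul c (dQ (Int.ofNat (Nat.add m 2)) d.B1)))
    (PE.mul q (dQ (Int.ofNat (Nat.add m 2)) d.B2))

/-- the polynomial of the bracket of `(p - t) ^ 2` -/
def tB (m : Nat) (d : HD) (b : BD) (e r : List Int) (c q : PE) : PE :=
  PE.sub (PE.mul (PE.c d.D) (brQ m (hQ b.y) (hQ e) (hQ r) c q))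
    (PE.mul (PE.c (Int.ofNat (Nat.mul 2 b.N))) (lhQ m d c q))

/-- the values of `c` at the vertices -/
def wc (i : Nat) : PE :=
  match i with
  | 0 => PE.c (-1)
  | 1 => PE.c 1
  | 2 => sQ
  | _ => PE.mul (PE.c (-1)) sQ

/-- the values of `p t` at the vertices -/
def wq (i : Nat) : PE :=
  match i with
  | 0 => PE.c 0
  | 1 => PE.c 0
  | 2 => PE.mul (PE.c (-4)) (PE.mul (PE.v 1) zQ)
  | _ => PE.mul (PE.c 4) (PE.mul (PE.v 1) zQ)

section

variable {T s : ℝ}

lemma ev_tA (m : ℕ) (d : HD) (b : BD) : PE.ev (gv T s) (tA m d b)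
    = d.D * m * pv b.el T - b.N * PE.ev (gv T s) (dQ (Int.ofNat m) d.A) := by
  have e : ((Int.mul d.D (Int.ofNat m) : ℤ) : ℝ) = d.D * m := by
    have : Int.mul d.D (Int.ofNat m) = d.D * (m : ℤ) := rfl
    rw [this]
    push_cast
    ring
  simp only [tA, PE.ev_sub, PE.ev_mul, PE.ev_c, evg_hQ, e]
  simp only [Int.ofNat_eq_natCast, Int.cast_natCast]

lemma ev_brQ (m : ℕ) (y e r c q : PE) : PE.ev (gv T s) (brQ m y e r c q)
    = m * ((T * PE.ev (gv T s) y + m * PE.ev (gv T s) r) * (1 - T * s) ^ 2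
      + (m + 1) * (2 * T ^ 2 * PE.ev (gv T s) r
        + PE.ev (gv T s) c * (T * (2 * PE.ev (gv T s) r - PE.ev (gv T s) e))) * (1 - T * s)
      + (m + 1) * (m + 2) * T ^ 2 * PE.ev (gv T s) r * PE.ev (gv T s) q) := by
  simp only [brQ, PE.ev_add, PE.ev_mul, PE.ev_v, PE.ev_c, PE.ev_sub, gv0,
    evg_vQ, Int.ofNat_eq_natCast, Nat.add_eq, Nat.mul_eq]
  push_cast
  ring

lemma ev_lhQ (m : ℕ) (d : HD) (c q : PE) : PE.ev (gv T s) (lhQ m d c q)
    = PE.ev (gv T s) (dQ (Int.ofNat (m + 2)) d.B0)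
      + PE.ev (gv T s) c * PE.ev (gv T s) (dQ (Int.ofNat (m + 2)) d.B1)
      + PE.ev (gv T s) q * PE.ev (gv T s) (dQ (Int.ofNat (m + 2)) d.B2) := rfl

lemma ev_tB (m : ℕ) (d : HD) (b : BD) (e r : List Int) (c q : PE) :
    PE.ev (gv T s) (tB m d b e r c q)
    = d.D * PE.ev (gv T s) (brQ m (hQ b.y) (hQ e) (hQ r) c q)
      - b.N * (2 * PE.ev (gv T s) (lhQ m d c q)) := by
  simp only [tB, PE.ev_sub, PE.ev_mul, PE.ev_c, Nat.mul_eq, Int.ofNat_eq_natCast]
  push_cast
  ring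

end

/-- parameters of the checks: degrees in `T` and `s` and the size -/
structure KG where
  /-- degree in `T`, first check -/
  nA : Nat
  /-- degree in `s`, first check -/
  kA : Nat
  /-- degree in `T` -/
  nB : Nat
  /-- degree in `s` -/
  kB : Nat
  /-- the number of bits -/
  a : Nat

/-- the 16 brackets and the coefficient of `(c - s) ^ 2` are nonnegative -/
structure OkK (m : ℕ) (d : HD) (b : BD) (g : KG) : Prop where
  hD : 0 < d.D
  hN : 0 < b.N
  hKA : d.KA = m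
  hKB : d.KB = m + 2
  hA : posK g.nA g.kA g.a (tA m d b) = true
  hB : ∀ i < 4, ∀ e ∈ [b.el, b.eu], ∀ r ∈ [b.rl, b.ru],
    posK g.nB g.kB g.a (tB m d b e r (wc i) (wq i)) = true

/-- the derivative of the static part is below the defect -/
theorem le_FKK {m : ℕ} {d : HD} {b : BD} {g : KG} (hok : OkK m d b g) {T y e r : ℝ}
    (hT0 : T ∈ Set.Ioo (0 : ℝ) 1) (hb : Bds b T y e r) {k : R4} (hk : Adm k) :
    Hd' d T k ≤ FK m T y e r k := by
  obtain ⟨s, t, p, c⟩ := k
  have hs := hk.s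
  have hd1 := hk.det
  have hk2 := hk.det2
  simp only at hs hd1 hk2
  have hTI : T ∈ Set.Icc (0 : ℝ) 1 := ⟨hT0.1.le, hT0.2.le⟩
  have hsI : s ∈ Set.Icc (-1 : ℝ) 1 := abs_le.1 hs
  have hv0 : 0 < 1 - T * s := one_sub_pos' ⟨hT0.1.le, hT0.2⟩ hsI.2
  have hN : (0 : ℝ) < b.N := Nat.cast_pos.2 hok.hN
  have hD : (0 : ℝ) < d.D := Int.cast_pos.2 hok.hD
  have cA := cf'_eq' (T := T) (s := s) m d.D d.A hv0.ne'
  have c0 := cf'_eq' (T := T) (s := s) (m + 2) d.D d.B0 hv0.ne'
  have c1 := cf'_eq' (T := T) (s := s) (m + 2) d.D d.B1 hv0.ne'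
  have c2 := cf'_eq' (T := T) (s := s) (m + 2) d.D d.B2 hv0.ne'
  set v := 1 - T * s with hvd
  set P := SM2.ker T m s with hP
  have hP0 : 0 < P := inv_pos.2 (pow_pos hv0 m)
  have k1 : SM2.ker T (m + 1) s = P / v := by
    have := ker_succ_div T s m 1
    rwa [pow_one] at this
  have k3 : SM2.ker T (m + 2 + 1) s = P / v ^ 3 := ker_succ_div T s m 3
  have hA0 := nonneg_of_posK hok.hA hTI hsI
  rw [ev_tA] at hA0
  have hB0 : ∀ i < 4, ∀ e ∈ [b.el, b.eu], ∀ r ∈ [b.rl, b.ru],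
      0 ≤ d.D * PE.ev (gv T s) (brQ m (hQ b.y) (hQ e) (hQ r) (wc i) (wq i))
      - b.N * (2 * PE.ev (gv T s) (lhQ m d (wc i) (wq i))) := by
    intro i hi e he r hr
    have := nonneg_of_posK (hok.hB i hi e he r hr) hTI hsI
    rwa [ev_tB] at this
  simp only [ev_brQ, ev_lhQ, evg_hQ] at hB0
  set XA := PE.ev (gv T s) (dQ (Int.ofNat m) d.A) with hXA
  set X0 := PE.ev (gv T s) (dQ (Int.ofNat (m + 2)) d.B0) with hX0
  set X1 := PE.ev (gv T s) (dQ (Int.ofNat (m + 2)) d.B1) with hX1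
  set X2 := PE.ev (gv T s) (dQ (Int.ofNat (m + 2)) d.B2) with hX2
  -- the coefficient of (c - s)^2
  have hA : b.N * XA ≤ b.N * (d.D * (m * e)) := by
    have h2 : (d.D : ℝ) * m * pv b.el T ≤ d.D * m * (b.N * e) :=
      mul_le_mul_of_nonneg_left hb.el (mul_nonneg hD.le (Nat.cast_nonneg m))
    nlinarith
  have hA' : XA ≤ d.D * (m * e) := le_of_mul_le_mul_left hA hN
  -- the bracket
  have vert : ∀ i < 4, ∀ C Q : ℝ, PE.ev (gv T s) (wc i) = C → PE.ev (gv T s) (wq i) = Q →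
      0 ≤ d.D * (m * ((T * (b.N * y) + m * (b.N * r)) * v ^ 2
        + (m + 1) * (2 * T ^ 2 * (b.N * r) + C * (T * (2 * (b.N * r) - b.N * e))) * v
        + (m + 1) * (m + 2) * T ^ 2 * (b.N * r) * Q)) - b.N * (2 * (X0 + C * X1 + Q * X2)) := by
    intro i hi C Q hC hQ
    have hcor : ∀ e' ∈ [b.el, b.eu], ∀ r' ∈ [b.rl, b.ru],
        0 ≤ d.D * (m * ((T * pv b.y T + m * pv r' T) * v ^ 2
        + (m + 1) * (2 * T ^ 2 * pv r' T + C * (T * (2 * pv r' T - pv e' T))) * v
        + (m + 1) * (m + 2) * T ^ 2 * pv r' T * Q)) - b.N * (2 * (X0 + C * X1 + Q * X2)) := by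
      intro e' he' r' hr'
      have h1 := hB0 i hi e' he' r' hr'
      rw [hC, hQ] at h1
      exact h1
    have hbox := box_nonneg
      (a := d.D * (m * (T * pv b.y T) * v ^ 2) - b.N * (2 * (X0 + C * X1 + Q * X2)))
      (b := -(d.D * (m * ((m + 1) * (C * T) * v))))
      (g := d.D * (m * (m * v ^ 2 + (m + 1) * (2 * T ^ 2 + C * (T * 2)) * v
        + (m + 1) * (m + 2) * T ^ 2 * Q)))
      hb.el hb.eu hb.rl hb.ru
      (by have := hcor b.el (by simp) b.rl (by simp); convert this using 1; ring)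
      (by have := hcor b.el (by simp) b.ru (by simp); convert this using 1; ring)
      (by have := hcor b.eu (by simp) b.rl (by simp); convert this using 1; ring)
      (by have := hcor b.eu (by simp) b.ru (by simp); convert this using 1; ring)
    have hy : (d.D : ℝ) * (m * (T * pv b.y T) * v ^ 2) ≤ d.D * (m * (T * (b.N * y)) * v ^ 2) := by
      have := hb.y
      have hT1 := hT0.1.le
      gcongr
    have e1 : d.D * (m * ((T * (b.N * y) + m * (b.N * r)) * v ^ 2
        + (m + 1) * (2 * T ^ 2 * (b.N * r) + C * (T * (2 * (b.N * r) - b.N * e))) * v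
        + (m + 1) * (m + 2) * T ^ 2 * (b.N * r) * Q)) - b.N * (2 * (X0 + C * X1 + Q * X2))
      = (d.D * (m * (T * (b.N * y)) * v ^ 2) - b.N * (2 * (X0 + C * X1 + Q * X2)))
        + -(d.D * (m * ((m + 1) * (C * T) * v))) * (b.N * e)
        + d.D * (m * (m * v ^ 2 + (m + 1) * (2 * T ^ 2 + C * (T * 2)) * v
          + (m + 1) * (m + 2) * T ^ 2 * Q)) * (b.N * r) := by ring
    rw [e1]
    linarith
  have v0 := vert 0 (by norm_num) (-1) 0 (by simp [wc]) (by simp [wq])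
  have v1 := vert 1 (by norm_num) 1 0 (by simp [wc]) (by simp [wq])
  have v2 := vert 2 (by norm_num) s (-(1 - s ^ 2)) (by simp [wc]) (by simp [wq, zQ]; ring)
  have v3 := vert 3 (by norm_num) (-s) (1 - s ^ 2) (by simp [wc]) (by simp [wq, zQ]; ring)
  have hB := affine_nonneg (s := s) (c := c) (q := p * t)
    (a := d.D * (m * ((T * (b.N * y) + m * (b.N * r)) * v ^ 2
      + (m + 1) * (2 * T ^ 2 * (b.N * r)) * v)) - b.N * (2 * X0))
    (b := d.D * (m * ((m + 1) * (T * (2 * (b.N * r) - b.N * e)) * v)) - b.N * (2 * X1))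
    (g := d.D * (m * ((m + 1) * (m + 2) * T ^ 2 * (b.N * r))) - b.N * (2 * X2))
    hs hd1 hk2
    (by convert v0 using 1; ring) (by convert v1 using 1; ring)
    (by convert v2 using 1; ring) (by convert v3 using 1; ring)
  unfold Hd' FK FF
  simp only
  rw [hok.hKA, hok.hKB, cA, c0, c1, c2, k1, k3, ← hvd, ← hP]
  have eA : m * e * (P / v) * (c - s) ^ 2 - P / v * XA / d.D * (c - s) ^ 2
      = (P / v) * (d.D * (m * e) - XA) / d.D * (c - s) ^ 2 := by
    field_simp
  have eB : (p - t) ^ 2 / 2 * (m * (T * y + m * r) * (P / v)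
      + m * (m + 1) * (2 * T ^ 2 * r + c * (T * (2 * r - e))) * (P / v ^ 2)
      + m * (m + 1) * (m + 2) * T ^ 2 * r * (p * t) * (P / v ^ 3))
      - (p - t) ^ 2 * (P / v ^ 3 * X0 / d.D + P / v ^ 3 * X1 / d.D * c
        + P / v ^ 3 * X2 / d.D * (p * t))
      = (p - t) ^ 2 * (P / v ^ 3) / (2 * b.N * d.D) *
      (d.D * (m * ((T * (b.N * y) + m * (b.N * r)) * v ^ 2
      + (m + 1) * (2 * T ^ 2 * (b.N * r)) * v)) - b.N * (2 * X0)
      + (d.D * (m * ((m + 1) * (T * (2 * (b.N * r) - b.N * e)) * v)) - b.N * (2 * X1)) * c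
      + (d.D * (m * ((m + 1) * (m + 2) * T ^ 2 * (b.N * r))) - b.N * (2 * X2)) * (p * t)) := by
    field_simp
    ring
  have nA : 0 ≤ (P / v) * (d.D * (m * e) - XA) / d.D * (c - s) ^ 2 := by
    have := sub_nonneg.2 hA'
    positivity
  have nB := mul_nonneg (by positivity : 0 ≤ (p - t) ^ 2 * (P / v ^ 3) / (2 * b.N * d.D)) hB
  linarith [eA, eB, nA, nB]

end

end Vale.Agent.P224.SH
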