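import Vale.Agent.P224.SM2.Anti

/-!
Static functions given by lists of integers.
-/

namespace Vale.Agent.P224.SH

open MeasureTheory Set Filter Function Module Vale.Agent.P224
open Vale.Agent.P224.SM2 hiding ker
open scoped Topology RealInnerProductSpace

/-- the value of a polynomial with integer coefficients -/
def pv : List ℤ → ℝ → ℝ
  | [], _ => 0
  | a :: l, T => a + T * pv l T

/-- the value of the derivative -/
def pv' : List ℤ → ℝ → ℝ
  | [], _ => 0
  | _ :: l, T => pv l T + T * pv' l T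

/-- a polynomial in two variables: the entries are the coefficients of the powers of `v` -/
def pv2 : List (List ℤ) → ℝ → ℝ → ℝ
  | [], _, _ => 0
  | c :: l, T, v => pv c T + v * pv2 l T v

/-- its derivative in `T` -/
def pvT : List (List ℤ) → ℝ → ℝ → ℝ
  | [], _, _ => 0
  | c :: l, T, v => pv' c T + v * pvT l T v

/-- its derivative in `v` -/
def pvV : List (List ℤ) → ℝ → ℝ → ℝ
  | [], _, _ => 0
  | _ :: l, T, v => pv2 l T v + v * pvV l T v

/-- a coefficient `(1 / D) ∑ n, P n (T) v ^ (n - K)`, `v = 1 - T s` -/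
noncomputable def cf (K : ℕ) (D : ℤ) (P : List (List ℤ)) (T s : ℝ) : ℝ :=
  SM2.ker T K s * pv2 P T (1 - T * s) / D

/-- its derivative in `T` -/
noncomputable def cf' (K : ℕ) (D : ℤ) (P : List (List ℤ)) (T s : ℝ) : ℝ :=
  (SM2.ker T K s * (pvT P T (1 - T * s) - s * pvV P T (1 - T * s))
    + K * s * SM2.ker T (K + 1) s * pv2 P T (1 - T * s)) / D

/-- the data of a static function -/
structure HD where
  /-- the denominator -/
  D : ℤ
  /-- the exponent of the first part -/
  KA : ℕ
  /-- the exponent of the second part -/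
  KB : ℕ
  /-- the coefficient of `(c - s) ^ 2` -/
  A : List (List ℤ)
  /-- the coefficient of `(p - t) ^ 2` -/
  B0 : List (List ℤ)
  /-- the coefficient of `(p - t) ^ 2 c` -/
  B1 : List (List ℤ)
  /-- the coefficient of `(p - t) ^ 2 p t` -/
  B2 : List (List ℤ)

/-- the static function -/
noncomputable def Hd (d : HD) (T : ℝ) (k : R4) : ℝ :=
  cf d.KA d.D d.A T k.1 * (k.2.2.2 - k.1) ^ 2
    + (k.2.2.1 - k.2.1) ^ 2 * (cf d.KB d.D d.B0 T k.1 + cf d.KB d.D d.B1 T k.1 * k.2.2.2
      + cf d.KB d.D d.B2 T k.1 * (k.2.2.1 * k.2.1))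

/-- its derivative in `T` -/
noncomputable def Hd' (d : HD) (T : ℝ) (k : R4) : ℝ :=
  cf' d.KA d.D d.A T k.1 * (k.2.2.2 - k.1) ^ 2
    + (k.2.2.1 - k.2.1) ^ 2 * (cf' d.KB d.D d.B0 T k.1 + cf' d.KB d.D d.B1 T k.1 * k.2.2.2
      + cf' d.KB d.D d.B2 T k.1 * (k.2.2.1 * k.2.1))

lemma continuous_pv (l : List ℤ) : Continuous (pv l) := by
  induction l with
  | nil => exact continuous_const
  | cons a l ih =>
    have : pv (a :: l) = fun T => (a : ℝ) + T * pv l T := rfl
    rw [this]
    fun_prop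

lemma continuous_pv' (l : List ℤ) : Continuous (pv' l) := by
  induction l with
  | nil => exact continuous_const
  | cons a l ih =>
    have h := continuous_pv l
    have : pv' (a :: l) = fun T => pv l T + T * pv' l T := rfl
    rw [this]
    fun_prop

lemma continuous_pv2 (P : List (List ℤ)) : Continuous fun x : ℝ × ℝ => pv2 P x.1 x.2 := by
  induction P with
  | nil => exact continuous_const
  | cons c P ih =>
    have h := continuous_pv c
    have : (fun x : ℝ × ℝ => pv2 (c :: P) x.1 x.2)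
      = fun x => pv c x.1 + x.2 * pv2 P x.1 x.2 := rfl
    rw [this]
    fun_prop

lemma continuous_pvT (P : List (List ℤ)) : Continuous fun x : ℝ × ℝ => pvT P x.1 x.2 := by
  induction P with
  | nil => exact continuous_const
  | cons c P ih =>
    have h := continuous_pv' c
    have : (fun x : ℝ × ℝ => pvT (c :: P) x.1 x.2)
      = fun x => pv' c x.1 + x.2 * pvT P x.1 x.2 := rfl
    rw [this]
    fun_prop

lemma continuous_pvV (P : List (List ℤ)) : Continuous fun x : ℝ × ℝ => pvV P x.1 x.2 := by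
  induction P with
  | nil => exact continuous_const
  | cons c P ih =>
    have h := continuous_pv2 P
    have : (fun x : ℝ × ℝ => pvV (c :: P) x.1 x.2)
      = fun x => pv2 P x.1 x.2 + x.2 * pvV P x.1 x.2 := rfl
    rw [this]
    fun_prop

lemma hasDerivAt_pv (l : List ℤ) (T : ℝ) : HasDerivAt (pv l) (pv' l T) T := by
  induction l with
  | nil => exact hasDerivAt_const T 0
  | cons a l ih =>
    have h := ((hasDerivAt_id T).mul ih).const_add (a : ℝ)
    refine h.congr_deriv ?_
    simp [pv']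

/-- the chain rule -/
lemma hasDerivAt_pv2 (P : List (List ℤ)) {V : ℝ → ℝ} {V' T : ℝ} (hV : HasDerivAt V V' T) :
    HasDerivAt (fun T => pv2 P T (V T)) (pvT P T (V T) + V' * pvV P T (V T)) T := by
  induction P with
  | nil =>
    refine (hasDerivAt_const T (0 : ℝ)).congr_deriv ?_
    simp [pvT, pvV]
  | cons c P ih =>
    have h := (hasDerivAt_pv c T).add (hV.mul ih)
    refine h.congr_deriv ?_
    simp only [pvT, pvV]
    ring

lemma hasDerivAt_kerT {T s : ℝ} (K : ℕ) (h : 1 - T * s ≠ 0) :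
    HasDerivAt (fun T => SM2.ker T K s) (K * s * SM2.ker T (K + 1) s) T := by
  have h1 : HasDerivAt (fun T : ℝ => 1 - T * s) (-s) T := by
    simpa using ((hasDerivAt_id T).mul_const s).const_sub 1
  have h2 := (h1.fun_pow K).fun_inv (pow_ne_zero K h)
  refine h2.congr_deriv ?_
  unfold SM2.ker
  rcases K with _ | K
  · simp
  · rw [Nat.add_sub_cancel]
    field_simp
    ring

lemma hasDerivAt_cf {T s : ℝ} (K : ℕ) (D : ℤ) (P : List (List ℤ)) (h : 1 - T * s ≠ 0) :
    HasDerivAt (fun T => cf K D P T s) (cf' K D P T s) T := by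
  have h1 : HasDerivAt (fun T : ℝ => 1 - T * s) (-s) T := by
    simpa using ((hasDerivAt_id T).mul_const s).const_sub 1
  have h2 := (((hasDerivAt_kerT K h).mul (hasDerivAt_pv2 P h1))).div_const (D : ℝ)
  refine h2.congr_deriv ?_
  unfold cf'
  ring

lemma hasDerivAt_Hd (d : HD) {T : ℝ} {k : R4} (h : 1 - T * k.1 ≠ 0) :
    HasDerivAt (fun T => Hd d T k) (Hd' d T k) T := by
  have hA := hasDerivAt_cf d.KA d.D d.A h
  have h0 := hasDerivAt_cf d.KB d.D d.B0 h
  have h1 := hasDerivAt_cf d.KB d.D d.B1 h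
  have h2 := hasDerivAt_cf d.KB d.D d.B2 h
  have h3 := (hA.mul_const ((k.2.2.2 - k.1) ^ 2)).add
    (((h0.add (h1.mul_const k.2.2.2)).add (h2.mul_const (k.2.2.1 * k.2.1))).const_mul
      ((k.2.2.1 - k.2.1) ^ 2))
  exact h3

end Vale.Agent.P224.SH
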