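import Mathlib

/-!
An affine function of two variables on a parallelogram, and an affine function on a box.
-/

namespace Vale.Agent.P224.SH

/-- affine functions on the parallelogram with vertices `(-1, 0)`, `(1, 0)`, `(s, -(1 - s ^ 2))`,
`(-s, 1 - s ^ 2)` -/
theorem affine_nonneg {s c q a b g : ℝ} (hs : |s| ≤ 1)
    (hd1 : |s - c| ≤ 1 - (s * c - q)) (hd2 : |s + c| ≤ 1 + (s * c - q))
    (h1 : 0 ≤ a - b) (h2 : 0 ≤ a + b) (h3 : 0 ≤ a + b * s - g * (1 - s ^ 2))
    (h4 : 0 ≤ a - b * s + g * (1 - s ^ 2)) : 0 ≤ a + b * c + g * q := by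
  obtain ⟨u1, u2⟩ := abs_le.1 hd1
  obtain ⟨w1, w2⟩ := abs_le.1 hd2
  obtain ⟨s1, s2⟩ := abs_le.1 hs
  rcases eq_or_lt_of_le s1 with e | e
  · subst e
    have hq : q = 0 := by linarith
    subst hq
    nlinarith [mul_nonneg h1 (by linarith : (0 : ℝ) ≤ 1 - c), mul_nonneg h2 (by linarith : (0 : ℝ) ≤ 1 + c)]
  rcases eq_or_lt_of_le s2 with e' | e'
  · subst e'
    have hq : q = 0 := by linarith
    subst hq
    nlinarith [mul_nonneg h1 (by linarith : (0 : ℝ) ≤ 1 - c), mul_nonneg h2 (by linarith : (0 : ℝ) ≤ 1 + c)]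
  have p1 : 0 < 1 + s := by linarith
  have p2 : 0 < 1 - s := by linarith
  set x : ℝ := ((1 + c) - q / (1 + s)) / 2 with hx
  set z : ℝ := ((1 + c) + q / (1 - s)) / 2 with hz
  have x0 : 0 ≤ x := by
    have : q / (1 + s) ≤ 1 + c := by rw [div_le_iff₀ p1]; nlinarith
    rw [hx]; linarith
  have x1 : 0 ≤ 1 - x := by
    have : -(1 - c) ≤ q / (1 + s) := by rw [le_div_iff₀ p1]; nlinarith
    rw [hx]; linarith
  have z0 : 0 ≤ z := by
    have : -(1 + c) ≤ q / (1 - s) := by rw [le_div_iff₀ p2]; nlinarith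
    rw [hz]; linarith
  have z1 : 0 ≤ 1 - z := by
    have : q / (1 - s) ≤ 1 - c := by rw [div_le_iff₀ p2]; nlinarith
    rw [hz]; linarith
  have key : a + b * c + g * q = (1 - x) * (1 - z) * (a - b) + x * z * (a + b)
      + x * (1 - z) * (a + b * s - g * (1 - s ^ 2)) + (1 - x) * z * (a - b * s + g * (1 - s ^ 2)) := by
    have e1 : x * (1 + s) + z * (1 - s) = 1 + c := by
      rw [hx, hz]
      field_simp
      ring
    have e2 : (z - x) * (1 - s ^ 2) = q := by
      rw [hx, hz]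
      field_simp
      ring
    have e3 : c = x * (1 + s) + z * (1 - s) - 1 := by linarith
    rw [← e2, e3]
    ring
  rw [key]
  have := mul_nonneg (mul_nonneg x1 z1) h1
  have := mul_nonneg (mul_nonneg x0 z0) h2
  have := mul_nonneg (mul_nonneg x0 z1) h3
  have := mul_nonneg (mul_nonneg x1 z0) h4
  linarith

/-- affine functions on a box -/
theorem box_nonneg {a b g e r el eu rl ru : ℝ} (he : el ≤ e) (he' : e ≤ eu) (hr : rl ≤ r)
    (hr' : r ≤ ru) (h1 : 0 ≤ a + b * el + g * rl) (h2 : 0 ≤ a + b * el + g * ru)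
    (h3 : 0 ≤ a + b * eu + g * rl) (h4 : 0 ≤ a + b * eu + g * ru) : 0 ≤ a + b * e + g * r := by
  rcases le_total 0 b with hb | hb
  · have k1 : b * el ≤ b * e := mul_le_mul_of_nonneg_left he hb
    rcases le_total 0 g with hg | hg
    · have k2 : g * rl ≤ g * r := mul_le_mul_of_nonneg_left hr hg
      linarith
    · have k2 : g * ru ≤ g * r := mul_le_mul_of_nonpos_left hr' hg
      linarith
  · have k1 : b * eu ≤ b * e := mul_le_mul_of_nonpos_left he' hb
    rcases le_total 0 g with hg | hg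
    · have k2 : g * rl ≤ g * r := mul_le_mul_of_nonneg_left hr hg
      linarith
    · have k2 : g * ru ≤ g * r := mul_le_mul_of_nonpos_left hr' hg
      linarith

end Vale.Agent.P224.SH
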