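import Vale.Agent.P224.POS.Pos
import Vale.Agent.P224.SMH.Hmono
import Vale.Agent.P224.SH.HD
import Vale.Agent.P224.SH.Vert

/-!
The derivative of a static part is below the defect: reduction to the nonnegativity of the
coefficients of polynomials in `T`, `1 - T`, `(1 - s) / 2`, `(1 + s) / 2`.
-/

namespace Vale.Agent.P224.SH

open Vale.Agent.P224.POS Vale.Agent.P224.SMH
open Vale.Agent.P224.SM2 hiding ker

noncomputable section

/-- the values of the variables: `T`, `1 - T`, `(1 - s) / 2`, `(1 + s) / 2` -/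
def fv (T s : ℝ) (i : ℕ) : ℝ :=
  if i = 0 then T else if i = 1 then 1 - T else if i = 2 then (1 - s) / 2
  else if i = 3 then (1 + s) / 2 else 0

/-- `T + (1 - T)` -/
def uP : PE := PE.add (PE.v 0) (PE.v 1)
/-- `(1 - s) / 2 + (1 + s) / 2` -/
def wP : PE := PE.add (PE.v 2) (PE.v 3)
/-- `1 - T s` -/
def vP : PE := PE.add (PE.mul (PE.v 1) wP) (PE.mul (PE.c 2) (PE.mul (PE.v 0) (PE.v 2)))
/-- `s` -/
def sP : PE := PE.sub (PE.v 3) (PE.v 2)
/-- `1` -/
def oP : PE := PE.mul uP wP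

/-- a polynomial in `T`, homogeneous of degree `n` -/
def hT (n : Nat) (l : List Int) : PE :=
  List.rec (motive := fun _ => Nat → PE) (fun _ => PE.c 0)
    (fun a _ ih n => PE.add (PE.mul (PE.c a) (PE.pow uP n))
      (PE.mul (PE.v 0) (ih (Nat.sub n 1)))) l n

/-- its derivative, homogeneous of degree `n - 1` -/
def hT' (n : Nat) (l : List Int) : PE :=
  List.rec (motive := fun _ => Nat → PE) (fun _ => PE.c 0)
    (fun _ l ih n => PE.add (hT (Nat.sub n 1) l) (PE.mul (PE.v 0) (ih (Nat.sub n 1)))) l n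

/-- `pv2` -/
def n2 (n : Nat) (P : List (List Int)) (J : Nat) : PE :=
  List.rec (motive := fun _ => Nat → PE) (fun _ => PE.c 0)
    (fun l _ ih J => PE.add (PE.mul (hT n l) (PE.pow oP J)) (PE.mul vP (ih (Nat.sub J 1)))) P J

/-- `pvT` -/
def nT (n : Nat) (P : List (List Int)) (J : Nat) : PE :=
  List.rec (motive := fun _ => Nat → PE) (fun _ => PE.c 0)
    (fun l _ ih J => PE.add (PE.mul (hT' n l) (PE.pow oP J)) (PE.mul vP (ih (Nat.sub J 1)))) P J

/-- `pvV` -/
def nV (n : Nat) (P : List (List Int)) (J : Nat) : PE :=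
  List.rec (motive := fun _ => Nat → PE) (fun _ => PE.c 0)
    (fun _ P ih J => PE.add (n2 n P (Nat.sub J 1)) (PE.mul vP (ih (Nat.sub J 1)))) P J

/-- the numerator of `cf'` over `v ^ (K + 1)` -/
def dn (K n : Nat) (P : List (List Int)) (J : Nat) : PE :=
  PE.add (PE.mul (PE.mul (PE.c (Int.ofNat K)) sP) (n2 n P J))
    (PE.mul vP (PE.sub (nT n P J) (PE.mul sP (nV n P J))))

section

variable {T s : ℝ}

@[simp] lemma fv0 : fv T s 0 = T := rfl
@[simp] lemma fv1 : fv T s 1 = 1 - T := rfl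
@[simp] lemma fv2 : fv T s 2 = (1 - s) / 2 := rfl
@[simp] lemma fv3 : fv T s 3 = (1 + s) / 2 := rfl

lemma fv_nonneg (hT : T ∈ Set.Icc (0 : ℝ) 1) (hs : s ∈ Set.Icc (-1 : ℝ) 1) (i : ℕ) :
    0 ≤ fv T s i := by
  unfold fv
  split_ifs
  · exact hT.1
  · linarith [hT.2]
  · linarith [hs.2]
  · linarith [hs.1]
  · exact le_rfl

lemma fv_ge {i : ℕ} (h : 4 ≤ i) : fv T s i = 0 := by
  unfold fv
  rw [if_neg (by omega), if_neg (by omega), if_neg (by omega), if_neg (by omega)]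

@[simp] lemma ev_uP : PE.ev (fv T s) uP = 1 := by
  simp only [uP, PE.ev_add, PE.ev_v, fv0, fv1]
  ring

@[simp] lemma ev_wP : PE.ev (fv T s) wP = 1 := by
  simp only [wP, PE.ev_add, PE.ev_v, fv2, fv3]
  ring

@[simp] lemma ev_vP : PE.ev (fv T s) vP = 1 - T * s := by
  simp only [vP, PE.ev_add, PE.ev_mul, PE.ev_v, PE.ev_c, fv0, fv1, fv2, ev_wP]
  push_cast
  ring

@[simp] lemma ev_sP : PE.ev (fv T s) sP = s := by
  simp only [sP, PE.ev_sub, PE.ev_v, fv2, fv3]
  ring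

@[simp] lemma ev_oP : PE.ev (fv T s) oP = 1 := by
  simp [oP]

@[simp] lemma ev_hT (n : ℕ) (l : List Int) : PE.ev (fv T s) (hT n l) = pv l T := by
  induction l generalizing n with
  | nil => simp [hT, pv]
  | cons a l ih =>
    have e : hT n (a :: l) = PE.add (PE.mul (PE.c a) (PE.pow uP n))
      (PE.mul (PE.v 0) (hT (n - 1) l)) := rfl
    rw [e]
    simp [ih, pv]

@[simp] lemma ev_hT' (n : ℕ) (l : List Int) : PE.ev (fv T s) (hT' n l) = pv' l T := by
  induction l generalizing n with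
  | nil => simp [hT', pv']
  | cons a l ih =>
    have e : hT' n (a :: l) = PE.add (hT (n - 1) l) (PE.mul (PE.v 0) (hT' (n - 1) l)) := rfl
    rw [e]
    simp [ih, pv']

@[simp] lemma ev_n2 (n : ℕ) (P : List (List Int)) (J : ℕ) :
    PE.ev (fv T s) (n2 n P J) = pv2 P T (1 - T * s) := by
  induction P generalizing J with
  | nil => simp [n2, pv2]
  | cons l P ih =>
    have e : n2 n (l :: P) J = PE.add (PE.mul (hT n l) (PE.pow oP J))
      (PE.mul vP (n2 n P (J - 1))) := rfl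
    rw [e]
    simp [ih, pv2]

@[simp] lemma ev_nT (n : ℕ) (P : List (List Int)) (J : ℕ) :
    PE.ev (fv T s) (nT n P J) = pvT P T (1 - T * s) := by
  induction P generalizing J with
  | nil => simp [nT, pvT]
  | cons l P ih =>
    have e : nT n (l :: P) J = PE.add (PE.mul (hT' n l) (PE.pow oP J))
      (PE.mul vP (nT n P (J - 1))) := rfl
    rw [e]
    simp [ih, pvT]

@[simp] lemma ev_nV (n : ℕ) (P : List (List Int)) (J : ℕ) :
    PE.ev (fv T s) (nV n P J) = pvV P T (1 - T * s) := by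
  induction P generalizing J with
  | nil => simp [nV, pvV]
  | cons l P ih =>
    have e : nV n (l :: P) J = PE.add (n2 n P (J - 1)) (PE.mul vP (nV n P (J - 1))) := rfl
    rw [e]
    simp [ih, pvV]

lemma ev_dn (K n : ℕ) (P : List (List Int)) (J : ℕ) : PE.ev (fv T s) (dn K n P J)
    = K * s * pv2 P T (1 - T * s)
      + (1 - T * s) * (pvT P T (1 - T * s) - s * pvV P T (1 - T * s)) := by
  simp [dn]

lemma cf'_eq (K : ℕ) (D : ℤ) (P : List (List ℤ)) (n J : ℕ) (h : 1 - T * s ≠ 0) :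
    cf' K D P T s = SM2.ker T (K + 1) s * PE.ev (fv T s) (dn K n P J) / D := by
  have h1 := ker_succ_div T s K 1
  rw [pow_one, eq_div_iff h] at h1
  unfold cf'
  rw [ev_dn, ← h1]
  ring

end

/-- integer data of the bounds of the coefficient functions -/
structure BD where
  /-- denominator -/
  N : Nat
  /-- lower bound -/
  y : List Int
  /-- lower bound -/
  el : List Int
  /-- upper bound -/
  eu : List Int
  /-- lower bound -/
  rl : List Int
  /-- upper bound -/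
  ru : List Int

/-- degrees: in `T` of the entries of the static part, of the bounds, and additional degrees -/
structure DG where
  /-- degree in `T` of the coefficients of the static part -/
  n : Nat
  /-- length minus one of the list `A` -/
  JA : Nat
  /-- length minus one of the lists `B` -/
  JB : Nat
  /-- degree of the bounds -/
  E : Nat
  /-- additional degree in `T` for `A` -/
  a1 : Nat
  /-- additional degree in `s` for `A` -/
  a2 : Nat
  /-- additional degree in `T` for `B` -/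
  b1 : Nat
  /-- additional degree in `s` for `B` -/
  b2 : Nat

/-- the polynomial of the coefficient of `(c - s) ^ 2` -/
def tgA (m : Nat) (d : HD) (b : BD) (g : DG) : PE :=
  PE.mul (PE.sub
    (PE.mul (PE.mul (PE.mul (PE.c d.D) (PE.c (Int.ofNat m))) (hT g.E b.el))
      (PE.mul (PE.pow uP (Nat.sub (Nat.add g.n g.JA) g.E)) (PE.pow wP (Nat.add g.JA 1))))
    (PE.mul (PE.mul (PE.c (Int.ofNat b.N)) (dn m g.n d.A g.JA))
      (PE.pow uP (Nat.sub g.E (Nat.add g.n g.JA)))))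
    (PE.mul (PE.pow uP g.a1) (PE.pow wP g.a2))

/-- the bracket of the defect, homogeneous -/
def brP (m : Nat) (y e r c q : PE) : PE :=
  PE.mul (PE.c (Int.ofNat m)) (PE.add (PE.add
    (PE.mul (PE.add (PE.mul (PE.v 0) y) (PE.mul (PE.c (Int.ofNat m)) (PE.mul uP r)))
      (PE.pow vP 2))
    (PE.mul (PE.mul (PE.c (Int.ofNat (Nat.add m 1)))
      (PE.add (PE.mul (PE.mul (PE.c 2) (PE.mul (PE.pow (PE.v 0) 2) r)) wP)
        (PE.mul (PE.mul c (PE.mul (PE.v 0) (PE.sub (PE.mul (PE.c 2) r) e))) uP))) vP))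
    (PE.mul (PE.c (Int.ofNat (Nat.mul (Nat.add m 1) (Nat.add m 2))))
      (PE.mul (PE.mul (PE.mul (PE.pow (PE.v 0) 2) r) q) uP)))

/-- the bracket of the derivative of the static part, homogeneous -/
def lhP (m : Nat) (d : HD) (g : DG) (c q : PE) : PE :=
  PE.mul (PE.c 2) (PE.add (PE.add
    (PE.mul (dn (Nat.add m 2) g.n d.B0 g.JB) (PE.pow wP 2))
    (PE.mul (PE.mul c (dn (Nat.add m 2) g.n d.B1 g.JB)) wP))
    (PE.mul q (dn (Nat.add m 2) g.n d.B2 g.JB)))

/-- the polynomial of the bracket of `(p - t) ^ 2` -/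
def tgB (m : Nat) (d : HD) (b : BD) (g : DG) (e r : List Int) (c q : PE) : PE :=
  PE.mul (PE.sub
    (PE.mul (PE.mul (PE.c d.D) (brP m (hT g.E b.y) (hT g.E e) (hT g.E r) c q))
      (PE.mul (PE.pow uP (Nat.sub (Nat.add g.n g.JB) (Nat.add g.E 3)))
        (PE.pow wP (Nat.add g.JB 1))))
    (PE.mul (PE.mul (PE.c (Int.ofNat b.N)) (lhP m d g c q))
      (PE.pow uP (Nat.sub (Nat.add g.E 3) (Nat.add g.n g.JB)))))
    (PE.mul (PE.pow uP g.b1) (PE.pow wP g.b2))

/-- the values of `c` at the vertices -/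
def vc (i : Nat) : PE :=
  match i with
  | 0 => PE.mul (PE.c (-1)) wP
  | 1 => wP
  | 2 => sP
  | _ => PE.mul (PE.c (-1)) sP

/-- the values of `p t` at the vertices -/
def vq (i : Nat) : PE :=
  match i with
  | 0 => PE.c 0
  | 1 => PE.c 0
  | 2 => PE.mul (PE.c (-4)) (PE.mul (PE.v 2) (PE.v 3))
  | _ => PE.mul (PE.c 4) (PE.mul (PE.v 2) (PE.v 3))

section

variable {T s : ℝ}

lemma ev_tgA (m : ℕ) (d : HD) (b : BD) (g : DG) : PE.ev (fv T s) (tgA m d b g)
    = d.D * m * pv b.el T - b.N * PE.ev (fv T s) (dn m g.n d.A g.JA) := by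
  simp [tgA]

lemma ev_brP (m : ℕ) (y e r c q : PE) : PE.ev (fv T s) (brP m y e r c q)
    = m * ((T * PE.ev (fv T s) y + m * PE.ev (fv T s) r) * (1 - T * s) ^ 2
      + (m + 1) * (2 * T ^ 2 * PE.ev (fv T s) r
        + PE.ev (fv T s) c * (T * (2 * PE.ev (fv T s) r - PE.ev (fv T s) e))) * (1 - T * s)
      + (m + 1) * (m + 2) * T ^ 2 * PE.ev (fv T s) r * PE.ev (fv T s) q) := by
  simp only [brP, PE.ev_add, PE.ev_mul, PE.ev_v, PE.ev_c, PE.ev_pow, PE.ev_sub, fv0, ev_uP,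
    ev_wP, ev_vP, Int.ofNat_eq_natCast, Nat.add_eq, Nat.mul_eq]
  push_cast
  ring

lemma ev_lhP (m : ℕ) (d : HD) (g : DG) (c q : PE) : PE.ev (fv T s) (lhP m d g c q)
    = 2 * (PE.ev (fv T s) (dn (m + 2) g.n d.B0 g.JB)
      + PE.ev (fv T s) c * PE.ev (fv T s) (dn (m + 2) g.n d.B1 g.JB)
      + PE.ev (fv T s) q * PE.ev (fv T s) (dn (m + 2) g.n d.B2 g.JB)) := by
  simp [lhP]

lemma ev_tgB (m : ℕ) (d : HD) (b : BD) (g : DG) (e r : List Int) (c q : PE) :
    PE.ev (fv T s) (tgB m d b g e r c q)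
    = d.D * PE.ev (fv T s) (brP m (hT g.E b.y) (hT g.E e) (hT g.E r) c q)
      - b.N * PE.ev (fv T s) (lhP m d g c q) := by
  simp [tgB]

end

/-- the 16 brackets and the coefficient of `(c - s) ^ 2` are nonnegative -/
structure Ok (m : ℕ) (d : HD) (b : BD) (g : DG) : Prop where
  hD : 0 < d.D
  hN : 0 < b.N
  hKA : d.KA = m
  hKB : d.KB = m + 2
  hA : posChk (tgA m d b g) = true
  hB : ∀ i < 4, ∀ e ∈ [b.el, b.eu], ∀ r ∈ [b.rl, b.ru],
    posChk (tgB m d b g e r (vc i) (vq i)) = true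

/-- the bounds of the coefficient functions -/
structure Bds (b : BD) (T y e r : ℝ) : Prop where
  y : pv b.y T ≤ b.N * y
  el : pv b.el T ≤ b.N * e
  eu : b.N * e ≤ pv b.eu T
  rl : pv b.rl T ≤ b.N * r
  ru : b.N * r ≤ pv b.ru T

/-- the derivative of the static part is below the defect -/
theorem le_FK {m : ℕ} {d : HD} {b : BD} {g : DG} (hok : Ok m d b g) {T y e r : ℝ}
    (hT0 : T ∈ Set.Ioo (0 : ℝ) 1) (hb : Bds b T y e r) {k : R4} (hk : Adm k)
    (hk2 : |k.1 + k.2.2.2| ≤ 1 + (k.1 * k.2.2.2 - k.2.2.1 * k.2.1)) :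
    Hd' d T k ≤ FK m T y e r k := by
  obtain ⟨s, t, p, c⟩ := k
  have hs := hk.s
  have hd1 := hk.det
  simp only at hs hd1 hk2
  have hTI : T ∈ Set.Icc (0 : ℝ) 1 := ⟨hT0.1.le, hT0.2.le⟩
  have hsI : s ∈ Set.Icc (-1 : ℝ) 1 := abs_le.1 hs
  have hv0 : 0 < 1 - T * s := one_sub_pos' ⟨hT0.1.le, hT0.2⟩ hsI.2
  have hN : (0 : ℝ) < b.N := Nat.cast_pos.2 hok.hN
  have hD : (0 : ℝ) < d.D := Int.cast_pos.2 hok.hD
  have hpos : ∀ e : PE, posChk e = true → 0 ≤ PE.ev (fv T s) e := fun e he =>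
    nonneg_of_posChk he _ (fv_nonneg hTI hsI) fun i hi => fv_ge (by omega)
  have cA := cf'_eq (T := T) (s := s) m d.D d.A g.n g.JA hv0.ne'
  have c0 := cf'_eq (T := T) (s := s) (m + 2) d.D d.B0 g.n g.JB hv0.ne'
  have c1 := cf'_eq (T := T) (s := s) (m + 2) d.D d.B1 g.n g.JB hv0.ne'
  have c2 := cf'_eq (T := T) (s := s) (m + 2) d.D d.B2 g.n g.JB hv0.ne'
  set v := 1 - T * s with hvd
  set P := SM2.ker T m s with hP
  have hP0 : 0 < P := inv_pos.2 (pow_pos hv0 m)
  have k1 : SM2.ker T (m + 1) s = P / v := by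
    have := ker_succ_div T s m 1
    rwa [pow_one] at this
  have k3 : SM2.ker T (m + 2 + 1) s = P / v ^ 3 := ker_succ_div T s m 3
  have hA0 := hpos _ hok.hA
  rw [ev_tgA] at hA0
  have hB0 : ∀ i < 4, ∀ e ∈ [b.el, b.eu], ∀ r ∈ [b.rl, b.ru],
      0 ≤ d.D * PE.ev (fv T s) (brP m (hT g.E b.y) (hT g.E e) (hT g.E r) (vc i) (vq i))
      - b.N * PE.ev (fv T s) (lhP m d g (vc i) (vq i)) := by
    intro i hi e he r hr
    have := hpos _ (hok.hB i hi e he r hr)
    rwa [ev_tgB] at this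
  simp only [ev_brP, ev_lhP, ev_hT] at hB0
  set XA := PE.ev (fv T s) (dn m g.n d.A g.JA) with hXA
  set X0 := PE.ev (fv T s) (dn (m + 2) g.n d.B0 g.JB) with hX0
  set X1 := PE.ev (fv T s) (dn (m + 2) g.n d.B1 g.JB) with hX1
  set X2 := PE.ev (fv T s) (dn (m + 2) g.n d.B2 g.JB) with hX2
  -- the coefficient of (c - s)^2
  have hA : b.N * XA ≤ b.N * (d.D * (m * e)) := by
    have h2 : (d.D : ℝ) * m * pv b.el T ≤ d.D * m * (b.N * e) :=
      mul_le_mul_of_nonneg_left hb.el (mul_nonneg hD.le (Nat.cast_nonneg m))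
    nlinarith
  have hA' : XA ≤ d.D * (m * e) := le_of_mul_le_mul_left hA hN
  -- the bracket
  have vert : ∀ i < 4, ∀ C Q : ℝ, PE.ev (fv T s) (vc i) = C → PE.ev (fv T s) (vq i) = Q →
      0 ≤ d.D * (m * ((T * (b.N * y) + m * (b.N * r)) * v ^ 2
        + (m + 1) * (2 * T ^ 2 * (b.N * r) + C * (T * (2 * (b.N * r) - b.N * e))) * v
        + (m + 1) * (m + 2) * T ^ 2 * (b.N * r) * Q)) - b.N * (2 * (X0 + C * X1 + Q * X2)) := by
    intro i hi C Q hC hQ
    have hcor : ∀ e' ∈ [b.el, b.eu], ∀ r' ∈ [b.rl, b.ru],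
        0 ≤ d.D * (m * ((T * pv b.y T + m * pv r' T) * v ^ 2
        + (m + 1) * (2 * T ^ 2 * pv r' T + C * (T * (2 * pv r' T - pv e' T))) * v
        + (m + 1) * (m + 2) * T ^ 2 * pv r' T * Q)) - b.N * (2 * (X0 + C * X1 + Q * X2)) := by
      intro e' he' r' hr'
      have h1 := hB0 i hi e' he' r' hr'
      rw [hC, hQ] at h1
      exact h1
    have hbox := box_nonneg
      (a := d.D * (m * (T * pv b.y T) * v ^ 2) - b.N * (2 * (X0 + C * X1 + Q * X2)))
      (b := -(d.D * (m * ((m + 1) * (C * T) * v))))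
      (g := d.D * (m * (m * v ^ 2 + (m + 1) * (2 * T ^ 2 + C * (T * 2)) * v
        + (m + 1) * (m + 2) * T ^ 2 * Q)))
      hb.el hb.eu hb.rl hb.ru
      (by have := hcor b.el (by simp) b.rl (by simp); convert this using 1; ring)
      (by have := hcor b.el (by simp) b.ru (by simp); convert this using 1; ring)
      (by have := hcor b.eu (by simp) b.rl (by simp); convert this using 1; ring)
      (by have := hcor b.eu (by simp) b.ru (by simp); convert this using 1; ring)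
    have hy : (d.D : ℝ) * (m * (T * pv b.y T) * v ^ 2) ≤ d.D * (m * (T * (b.N * y)) * v ^ 2) := by
      have := hb.y
      have hT1 := hT0.1.le
      gcongr
    have e1 : d.D * (m * ((T * (b.N * y) + m * (b.N * r)) * v ^ 2
        + (m + 1) * (2 * T ^ 2 * (b.N * r) + C * (T * (2 * (b.N * r) - b.N * e))) * v
        + (m + 1) * (m + 2) * T ^ 2 * (b.N * r) * Q)) - b.N * (2 * (X0 + C * X1 + Q * X2))
      = (d.D * (m * (T * (b.N * y)) * v ^ 2) - b.N * (2 * (X0 + C * X1 + Q * X2)))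
        + -(d.D * (m * ((m + 1) * (C * T) * v))) * (b.N * e)
        + d.D * (m * (m * v ^ 2 + (m + 1) * (2 * T ^ 2 + C * (T * 2)) * v
          + (m + 1) * (m + 2) * T ^ 2 * Q)) * (b.N * r) := by ring
    rw [e1]
    linarith
  have v0 := vert 0 (by norm_num) (-1) 0 (by simp [vc]) (by simp [vq])
  have v1 := vert 1 (by norm_num) 1 0 (by simp [vc]) (by simp [vq])
  have v2 := vert 2 (by norm_num) s (-(1 - s ^ 2)) (by simp [vc]) (by simp [vq]; ring)
  have v3 := vert 3 (by norm_num) (-s) (1 - s ^ 2) (by simp [vc]) (by simp [vq]; ring)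
  have hB := affine_nonneg (s := s) (c := c) (q := p * t)
    (a := d.D * (m * ((T * (b.N * y) + m * (b.N * r)) * v ^ 2
      + (m + 1) * (2 * T ^ 2 * (b.N * r)) * v)) - b.N * (2 * X0))
    (b := d.D * (m * ((m + 1) * (T * (2 * (b.N * r) - b.N * e)) * v)) - b.N * (2 * X1))
    (g := d.D * (m * ((m + 1) * (m + 2) * T ^ 2 * (b.N * r))) - b.N * (2 * X2))
    hs hd1 hk2
    (by convert v0 using 1; ring) (by convert v1 using 1; ring)
    (by convert v2 using 1; ring) (by convert v3 using 1; ring)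
  unfold Hd' FK FF
  simp only
  rw [hok.hKA, hok.hKB, cA, c0, c1, c2, k1, k3, ← hvd, ← hP]
  have eA : m * e * (P / v) * (c - s) ^ 2 - P / v * XA / d.D * (c - s) ^ 2
      = (P / v) * (d.D * (m * e) - XA) / d.D * (c - s) ^ 2 := by
    field_simp
  have eB : (p - t) ^ 2 / 2 * (m * (T * y + m * r) * (P / v)
      + m * (m + 1) * (2 * T ^ 2 * r + c * (T * (2 * r - e))) * (P / v ^ 2)
      + m * (m + 1) * (m + 2) * T ^ 2 * r * (p * t) * (P / v ^ 3))
      - (p - t) ^ 2 * (P / v ^ 3 * X0 / d.D + P / v ^ 3 * X1 / d.D * c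
        + P / v ^ 3 * X2 / d.D * (p * t))
      = (p - t) ^ 2 * (P / v ^ 3) / (2 * b.N * d.D) *
      (d.D * (m * ((T * (b.N * y) + m * (b.N * r)) * v ^ 2
      + (m + 1) * (2 * T ^ 2 * (b.N * r)) * v)) - b.N * (2 * X0)
      + (d.D * (m * ((m + 1) * (T * (2 * (b.N * r) - b.N * e)) * v)) - b.N * (2 * X1)) * c
      + (d.D * (m * ((m + 1) * (m + 2) * T ^ 2 * (b.N * r))) - b.N * (2 * X2)) * (p * t)) := by
    field_simp
    ring
  have nA : 0 ≤ (P / v) * (d.D * (m * e) - XA) / d.D * (c - s) ^ 2 := by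
    have := sub_nonneg.2 hA'
    positivity
  have nB := mul_nonneg (by positivity : 0 ≤ (p - t) ^ 2 * (P / v ^ 3) / (2 * b.N * d.D)) hB
  linarith [eA, eB, nA, nB]

end

end Vale.Agent.P224.SH
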