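import Vale.Agent.P224.POS.Pos

/-!
Positivity from the signs of the coefficients.
-/

namespace Vale.Agent.P224.SH

open Vale.Agent.P224.POS

theorem nonneg_of_hpos (e : PE) (h : HP.nn (PE.hp (env []) e) = true) (f : ℕ → ℝ)
    (hf : ∀ i, 0 ≤ f i) (h10 : ∀ i, 10 ≤ i → f i = 0) : 0 ≤ PE.ev f e :=
  nonneg_of_posChk h f hf h10

end Vale.Agent.P224.SH
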