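import Vale.Agent.P224.SH.HD

/-!
Positivity of polynomials with integer coefficients on the unit interval: a check by the kernel.
-/

namespace Vale.Agent.P224.SH.Pv1

open Set

/-- multiplication of the homogeneous polynomial with coefficients `l` by `α x' + β x` -/
def mulL (α β : ℤ) : ℤ → List ℤ → List ℤ
  | c, [] => [β * c]
  | c, a :: l => (α * a + β * c) :: mulL α β a l

/-- the value of the homogeneous polynomial `∑ l_j x ^ j x' ^ (n - j)` -/
def hv (x x' : ℝ) : List ℤ → ℝ
  | [] => 0
  | a :: l => a * x' ^ l.length + x * hv x x' l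

/-- `H + a W` -/
def addL (a : ℤ) : List ℤ → List ℤ → List ℤ
  | h :: H, w :: W => (h + a * w) :: addL a H W
  | _, _ => []

/-- the homogeneous form on the interval `[p / N, (p + 1) / N]` -/
def hor (N p : ℤ) : List ℤ → List ℤ × List ℤ
  | [] => ([], [1])
  | a :: l => (addL a (mulL p (p + 1) 0 (hor N p l).1) (hor N p l).2, mulL N N 0 (hor N p l).2)

/-- all entries are nonnegative -/
def nnL : List ℤ → Bool
  | [] => true
  | a :: l => decide (0 ≤ a) && nnL l

/-- the check on the intervals `[p / N, (p + 1) / N]`, `p < k` -/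
def chkL (N : ℕ) (l : List ℤ) : ℕ → Bool
  | 0 => true
  | p + 1 => nnL (hor N p l).1 && chkL N l p

/-- the check -/
def chk1 (N : ℕ) (l : List ℤ) : Bool := chkL N l N

variable {x x' : ℝ}

lemma length_mulL (α β : ℤ) : ∀ (l : List ℤ) (c : ℤ), (mulL α β c l).length = l.length + 1
  | [], _ => rfl
  | a :: l, c => by
    change (mulL α β a l).length + 1 = _
    rw [length_mulL α β l a]
    rfl

lemma hv_mulL (α β : ℤ) : ∀ (l : List ℤ) (c : ℤ), hv x x' (mulL α β c l)
    = (α * x' + β * x) * hv x x' l + β * c * x' ^ l.length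
  | [], c => by
    change ((β * c : ℤ) : ℝ) * x' ^ 0 + x * 0 = _ * 0 + _ * x' ^ 0
    push_cast
    ring
  | a :: l, c => by
    change ((α * a + β * c : ℤ) : ℝ) * x' ^ (mulL α β a l).length + x * hv x x' (mulL α β a l)
      = (α * x' + β * x) * (a * x' ^ l.length + x * hv x x' l) + β * c * x' ^ (l.length + 1)
    rw [length_mulL, hv_mulL α β l a]
    push_cast
    ring

lemma length_addL (a : ℤ) : ∀ (H W : List ℤ), H.length = W.length →
    (addL a H W).length = H.length
  | [], _, _ => by simp [addL]
  | h :: H, [], e => by simp at e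
  | h :: H, w :: W, e => by
    change (addL a H W).length + 1 = H.length + 1
    rw [length_addL a H W (by simpa using e)]

lemma hv_addL (a : ℤ) : ∀ (H W : List ℤ), H.length = W.length →
    hv x x' (addL a H W) = hv x x' H + a * hv x x' W
  | [], [], _ => by simp [addL, hv]
  | [], w :: W, e => by simp at e
  | h :: H, [], e => by simp at e
  | h :: H, w :: W, e => by
    have e1 : H.length = W.length := by simpa using e
    change ((h + a * w : ℤ) : ℝ) * x' ^ (addL a H W).length + x * hv x x' (addL a H W)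
      = h * x' ^ H.length + x * hv x x' H + a * (w * x' ^ W.length + x * hv x x' W)
    rw [length_addL a H W e1, hv_addL a H W e1, e1]
    push_cast
    ring

lemma hor_spec (N p : ℤ) (hx : x + x' = 1) {T : ℝ} (hT : (N : ℝ) * T = p * x' + (p + 1) * x) :
    ∀ l : List ℤ, (hor N p l).1.length = l.length ∧ (hor N p l).2.length = l.length + 1 ∧
      hv x x' (hor N p l).2 = (N : ℝ) ^ l.length ∧
      N * hv x x' (hor N p l).1 = (N : ℝ) ^ l.length * pv l T
  | [] => by simp [hor, hv, pv]
  | a :: l => by
    obtain ⟨h1, h2, h3, h4⟩ := hor_spec N p hx hT l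
    have e1 : (mulL p (p + 1) 0 (hor N p l).1).length = (hor N p l).2.length := by
      rw [length_mulL, h1, h2]
    refine ⟨?_, ?_, ?_, ?_⟩
    · change (addL a (mulL p (p + 1) 0 (hor N p l).1) (hor N p l).2).length = _
      rw [length_addL _ _ _ e1, length_mulL, h1]
      rfl
    · change (mulL N N 0 (hor N p l).2).length = _
      rw [length_mulL, h2]
      rfl
    · change hv x x' (mulL N N 0 (hor N p l).2) = _
      rw [hv_mulL, h3, List.length_cons, pow_succ]
      push_cast
      have : (N : ℝ) * x' + N * x = N := by rw [← mul_add, add_comm x' x, hx, mul_one]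
      rw [this]
      ring
    · change N * hv x x' (addL a (mulL p (p + 1) 0 (hor N p l).1) (hor N p l).2)
        = (N : ℝ) ^ (l.length + 1) * (a + T * pv l T)
      rw [hv_addL _ _ _ e1, hv_mulL, h3]
      push_cast
      rw [← hT]
      have : (N : ℝ) * (N * T * hv x x' (hor N p l).1 + (p + 1) * 0 * x' ^ (hor N p l).1.length
          + a * (N : ℝ) ^ l.length)
        = N * T * (N * hv x x' (hor N p l).1) + a * (N : ℝ) ^ (l.length + 1) := by ring
      rw [this, h4]
      ring

lemma hv_nonneg (hx : 0 ≤ x) (hx' : 0 ≤ x') : ∀ l : List ℤ, nnL l = true → 0 ≤ hv x x' l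
  | [], _ => le_rfl
  | a :: l, h => by
    have h0 : (decide (0 ≤ a) && nnL l) = true := h
    rw [Bool.and_eq_true, decide_eq_true_eq] at h0
    have h1 := hv_nonneg hx hx' l h0.2
    have h2 : (0 : ℝ) ≤ a := by exact_mod_cast h0.1
    change 0 ≤ (a : ℝ) * x' ^ l.length + x * hv x x' l
    positivity

lemma chkL_spec (N : ℕ) (l : List ℤ) : ∀ k : ℕ, chkL N l k = true →
    ∀ p < k, nnL (hor N (p : ℤ) l).1 = true
  | 0, _, p, hp => absurd hp (Nat.not_lt_zero p)
  | k + 1, h, p, hp => by
    have h0 : (nnL (hor N k l).1 && chkL N l k) = true := h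
    rw [Bool.and_eq_true] at h0
    rcases Nat.lt_succ_iff_lt_or_eq.1 hp with h1 | h1
    · exact chkL_spec N l k h0.2 p h1
    · rw [h1]
      exact h0.1

/-- Verified positivity on the unit interval. -/
theorem pv_nonneg {N : ℕ} {l : List ℤ} (hN : 0 < N) (h : chk1 N l = true) {T : ℝ}
    (hT : T ∈ Icc (0 : ℝ) 1) : 0 ≤ pv l T := by
  have hN' : (0 : ℝ) < N := by exact_mod_cast hN
  rcases eq_or_lt_of_le hT.2 with h1 | h1
  · -- the right end point
    have key := chkL_spec N l N h (N - 1) (by omega)
    have e : ((N - 1 : ℕ) : ℤ) = (N : ℤ) - 1 := by omega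
    have hs := hor_spec (x := 1) (x' := 0) (N : ℤ) ((N - 1 : ℕ) : ℤ) (by norm_num) (T := T)
      (by rw [e, h1]; push_cast; ring) l
    have h2 := hv_nonneg (x := 1) (x' := 0) zero_le_one le_rfl _ key
    have h3 := hs.2.2.2
    have h4 : 0 ≤ (N : ℝ) ^ l.length * pv l T := by
      rw [← Int.cast_natCast (R := ℝ) N, ← h3]
      push_cast
      positivity
    exact nonneg_of_mul_nonneg_right h4 (by positivity)
  · set p := ⌊(N : ℝ) * T⌋₊ with hp
    have hNT : 0 ≤ (N : ℝ) * T := mul_nonneg hN'.le hT.1
    have hp1 : (p : ℝ) ≤ N * T := Nat.floor_le hNT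
    have hp2 : (N : ℝ) * T < p + 1 := Nat.lt_floor_add_one _
    have hpN : p < N := by
      have : (p : ℝ) < N := lt_of_le_of_lt hp1 (by nlinarith)
      exact_mod_cast this
    have key := chkL_spec N l N h p hpN
    have hs := hor_spec (x := N * T - p) (x' := 1 - (N * T - p)) (N : ℤ) (p : ℤ) (by ring) (T := T)
      (by push_cast; ring) l
    have h2 := hv_nonneg (x := N * T - p) (x' := 1 - (N * T - p)) (by linarith) (by linarith) _ key
    have h3 := hs.2.2.2
    have h4 : 0 ≤ (N : ℝ) ^ l.length * pv l T := by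
      rw [← Int.cast_natCast (R := ℝ) N, ← h3]
      push_cast
      positivity
    exact nonneg_of_mul_nonneg_right h4 (by positivity)

end Vale.Agent.P224.SH.Pv1
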