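import Vale.Agent.P224.SH.HDM
import Vale.Agent.P224.POS.ZM

/-!
The static inequality in even dimension, in the form used by the law.
-/

namespace Vale.Agent.P224.SH

open MeasureTheory Set Filter Function Module Vale.Agent.P224 Vale.Agent.P224.UE
open Vale.Agent.P224.POS Vale.Agent.P224.POS.RM
open Vale.Agent.P224.SM2 hiding ker
open scoped Topology RealInnerProductSpace ENNReal ContDiff Manifold

set_option linter.unusedSectionVars false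

section

variable {V W M : Type*} [NormedAddCommGroup V] [InnerProductSpace ℝ V] [FiniteDimensional ℝ V]
  [NormedAddCommGroup W] [InnerProductSpace ℝ W] [FiniteDimensional ℝ W]
  [TopologicalSpace M] [ChartedSpace V M]
  [MeasurableSpace V] [BorelSpace V] [MeasurableSpace M] [BorelSpace M]
  [IsManifold 𝓘(ℝ, V) ∞ M] [CompactSpace M] [T2Space M]
  [MeasurableSpace W] [BorelSpace W]

/-- the static inequality in dimension `2 * h`, from the pointwise inequality -/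
theorem static_Lg {h : ℕ} (hh : 2 ≤ h) {y Z e r : ℝ → ℝ} {lam : ℝ} (hlam : 0 ≤ lam)
    (hc : Cert (2 * h) y Z e r) (hl : CertLim (2 * h) y Z e r lam)
    (h0 : y 0 = (((2 * h : ℕ) : ℝ) - 1) / (((2 * h : ℕ) : ℝ) - 2))
    (h1 : Z 0 = (((2 * h : ℕ) : ℝ) - 1) / (((2 * h : ℕ) : ℝ) - 2)) (he : e 0 = 0)
    {H : HD} {DL K kA : ℕ} {lA l0 l1 l2 : List ℤ} (hK : K = h + 1) (hkA : kA + 1 = h)
    (hz : H.zOk = true) (hd : H.dvOk kA K = true) (hD : H.D = DL)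
    (hok : oneOk H K lA l0 l1 l2 = true)
    (hle : ∀ T ∈ Ioo (0 : ℝ) 1, ∀ k, SMH.Adm k → Hd' H T k ≤ FK (2 * h) T (y T) (e T) (r T) k)
    (hV : finrank ℝ V = 2 * h) (hW : finrank ℝ W = finrank ℝ V + 2) {F : M → W}
    (hF : SphImm V F) (hmin : ∀ x n, IsUnitNormal V F x n → meanCurv V F x n = 0)
    {N : M → W} (hNs : ContMDiff 𝓘(ℝ, V) 𝓘(ℝ, W) ∞ N) (hN : ∀ x, IsUnitNormal V F x (N x))
    (hinj : Injective F) (v : W) :
    Integrable (fun q => Lg DL K lA l0 l1 l2 (dat F N v q)) ((volM V F).prod (volM V F)) ∧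
      ∫ q, Lg DL K lA l0 l1 l2 (dat F N v q) ∂((volM V F).prod (volM V F))
        + 2 * lam * sphereVol (2 * h) * (volM V F).real univ
      ≤ (volM V F).real univ ^ 2 + ((2 * h : ℕ) * r 0) * ‖∫ x, N x ∂(volM V F)‖ ^ 2 := by
  have hfin : IsFiniteMeasure (volM V F) := isFiniteMeasure_volM hF
  have h4 : ((finrank ℝ V : ℕ) : ℝ) = ((2 * h : ℕ) : ℝ) := by rw [hV]
  have hs := static_HD (y := y) (Z := Z) (e := e) (r := r) (lam := lam) (d := H)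
    (kA := kA) (kB := K) (by omega) hW hF hmin hNs hN hinj hlam
    (by rw [hV]; exact hc) (by rw [hV]; exact hl)
    (by rw [h4]; exact h0) (by rw [h4]; exact h1) he hz hd
    (by omega) (by omega) (by rw [hV]; exact hle)
  have hae := (twoG_of_min hW hF hmin hNs hN).ae_lt (by omega) v
  have heq : (fun q => Hd H 1 (SM2.pr F N q))
      =ᵐ[(volM V F).prod (volM V F)] fun q => Lg DL K lA l0 l1 l2 (dat F N v q) := by
    filter_upwards [hae] with q hq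
    rw [← Hd_one hD hok hq]
    rfl
  refine ⟨hs.1.congr heq, ?_⟩
  have h2 := hs.2
  rw [integral_congr_ae heq, h4, hV] at h2
  linarith

/-- The sharp bound from the pointwise inequality and a certificate, in dimension `2 * h`. -/
theorem main_of_le [ConnectedSpace M] {h : ℕ} (hh : 2 ≤ h) {y Z e r : ℝ → ℝ} {lam : ℝ}
    (hlam : 0 ≤ lam)
    (hc : Cert (2 * h) y Z e r) (hl : CertLim (2 * h) y Z e r lam)
    (h0 : y 0 = (((2 * h : ℕ) : ℝ) - 1) / (((2 * h : ℕ) : ℝ) - 2))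
    (h1 : Z 0 = (((2 * h : ℕ) : ℝ) - 1) / (((2 * h : ℕ) : ℝ) - 2)) (he : e 0 = 0)
    {H : HD} {DL K kA : ℕ} {lA l0 l1 l2 : List ℤ} (hK : K = h + 1) (hkA : kA + 1 = h)
    (hz : H.zOk = true) (hd : H.dvOk kA K = true) (hD : H.D = DL)
    (hok : oneOk H K lA l0 l1 l2 = true)
    (hle : ∀ T ∈ Ioo (0 : ℝ) 1, ∀ k, SMH.Adm k → Hd' H T k ≤ FK (2 * h) T (y T) (e T) (r T) k)
    (hC2 : 2 * lam ≤ 2) (hC : leastClifford (2 * h) ≤ 2 * lam * sphereVol (2 * h))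
    {b0 b1 b2 b3 b4 b5 b6 b7 b8 : ℝ} {l : List (ℝ × RTerm)}
    (hll : ∀ cT ∈ l, cT.2.okM (2 * h) = true)
    (hneg : ∀ Θ u s : ℝ, 6 / 5 ≤ Θ → Θ < 2 * lam → 0 ≤ u → Θ ^ 2 * u ≤ 1 → u ^ 2 ≤ s → s ≤ u →
      Θ * (1 + ((2 * h : ℕ) * r 0) * u + (b0 + (b1 + b2 + b3) * u + (b4 + b7) * s
        + (b5 + b6) * u ^ 2 + b8 * ((u - s) / (2 * h + 1))))
        + (gam h h)⁻¹ * rvalM (2 * h) l u s < 2 * lam)
    (hV : finrank ℝ V = 2 * h) (hW : finrank ℝ W = finrank ℝ V + 2) {F : M → W}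
    (hF : SphImm V F) (hmin : ∀ x n, IsUnitNormal V F x n → meanCurv V F x n = 0)
    (hng : ¬ ∃ a : W, a ≠ 0 ∧ ∀ x, ⟪F x, a⟫ = 0)
    (hpos : ∀ e x N y w : W, ‖e‖ ^ 2 ≤ 25 / 36 → ‖x‖ = 1 → ‖N‖ = 1 → ‖y‖ = 1 → ‖w‖ = 1 →
      ⟪x, N⟫ = 0 → ⟪y, w⟫ = 0 → ⟪x, y⟫ < 1 → 0 ≤ Lg DL K lA l0 l1 l2 (dv x N y w e)
        + W9 b0 b1 b2 b3 b4 b5 b6 b7 b8 (dv x N y w e) + rsumM (2 * h) l (dv x N y w e)) :
    ENNReal.ofReal (leastClifford (finrank ℝ V)) ≤ volM V F univ :=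
  main_m_of_cert hh hV hW hF hmin hng hC2 hC hll
    (fun _ hNs hN hinj v => static_Lg hh hlam hc hl h0 h1 he hK hkA hz hd hD hok hle hV hW hF
      hmin hNs hN hinj v) hpos hneg

end

end Vale.Agent.P224.SH
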