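import Vale.Agent.P224.SM2.Cst
import Vale.Agent.P224.SH.Pv1

/-!
Bounds of the hypergeometric integral by partial sums of its power series.
-/


namespace Vale.Agent.P224.SH

open MeasureTheory Set Filter Function Real Vale.Agent.P224.SM2
open scoped Topology

/-- the coefficients of `(1 - x) ^ (-1 / 2)` -/
noncomputable def cB : ℕ → ℝ
  | 0 => 1
  | k + 1 => cB k * ((2 * k + 1) / (2 * k + 2))

lemma cB_succ (k : ℕ) : cB (k + 1) = cB k * ((2 * k + 1) / (2 * k + 2)) := rfl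

lemma cB_nonneg : ∀ k, 0 ≤ cB k
  | 0 => zero_le_one
  | k + 1 => by
    rw [cB_succ]
    have := cB_nonneg k
    positivity

lemma choose_eq_cB (n : ℕ) : Ring.choose ((1 / 2 : ℝ) + n - 1) n = cB n := by
  rw [← Ring.multichoose_eq]
  have h := Ring.factorial_nsmul_multichoose_eq_ascPochhammer (1 / 2 : ℝ) n
  rw [Polynomial.ascPochhammer_smeval_eq_eval] at h
  have key : ∀ n : ℕ, (ascPochhammer ℝ n).eval (1 / 2) = n.factorial * cB n := by
    intro n
    induction n with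
    | zero => simp [cB]
    | succ n ih =>
      rw [ascPochhammer_succ_eval, ih, cB_succ, Nat.factorial_succ]
      push_cast
      field_simp
      ring
  rw [key, nsmul_eq_mul] at h
  have h0 : (n.factorial : ℝ) ≠ 0 := by positivity
  exact mul_left_cancel₀ h0 h

theorem hasSum_cB {x : ℝ} (hx : |x| < 1) :
    HasSum (fun n => cB n * x ^ n) ((√(1 - x))⁻¹) := by
  have h := (Real.one_div_one_sub_rpow_hasFPowerSeriesOnBall_zero (1 / 2)).hasSum (y := x)
    (by simpa [enorm_eq_nnnorm] using! hx)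
  have e : (fun n : ℕ => (FormalMultilinearSeries.ofScalars ℝ
      fun n : ℕ ↦ Ring.choose ((1 / 2 : ℝ) + n - 1) n) n fun _ => x) = fun n => cB n * x ^ n := by
    funext n
    rw [FormalMultilinearSeries.ofScalars_apply_eq, choose_eq_cB, smul_eq_mul]
  rw [e, zero_add, ← sqrt_eq_rpow, one_div] at h
  exact h

lemma cB_lower {x : ℝ} (h0 : 0 ≤ x) (h1 : x < 1) (K : ℕ) :
    ∑ k ∈ Finset.range K, cB k * x ^ k ≤ (√(1 - x))⁻¹ :=
  sum_le_hasSum _ (fun k _ => mul_nonneg (cB_nonneg k) (pow_nonneg h0 k))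
    (hasSum_cB (by rwa [abs_of_nonneg h0]))

lemma cB_upper {x κ : ℝ} (h0 : 0 ≤ x) (h1 : x < 1) (hk0 : 0 ≤ κ) (hk1 : κ ≤ 1) (K : ℕ) :
    (√(1 - κ * x))⁻¹ ≤ ∑ k ∈ Finset.range K, cB k * (κ * x) ^ k
      + κ ^ K * ((√(1 - x))⁻¹ - ∑ k ∈ Finset.range K, cB k * x ^ k) := by
  have hx := hasSum_cB (x := x) (by rwa [abs_of_nonneg h0])
  have hkx := hasSum_cB (x := κ * x) (by
    rw [abs_of_nonneg (by positivity)]
    nlinarith)
  have a1 := (hasSum_nat_add_iff' K).2 hx
  have a2 := (hasSum_nat_add_iff' K).2 hkx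
  have a3 := a1.mul_left (κ ^ K)
  have a4 := hasSum_le (fun n => ?_) a2 a3
  · linarith
  · rw [mul_pow, pow_add κ n K]
    have e1 : κ ^ n ≤ 1 := pow_le_one₀ hk0 hk1
    have e2 : 0 ≤ κ ^ K * (cB (n + K) * x ^ (n + K)) :=
      mul_nonneg (pow_nonneg hk0 K) (mul_nonneg (cB_nonneg _) (pow_nonneg h0 _))
    nlinarith [mul_le_mul_of_nonneg_left e1 e2]

lemma Q_eq (T θ : ℝ) : Q T θ = (√(1 - (1 - T ^ 2) * cos θ ^ 2))⁻¹ := by
  unfold Q
  congr 2
  linear_combination sin_sq_add_cos_sq θ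

/-- the partial sums of the integrand -/
noncomputable def SS (n K : ℕ) (κ θ : ℝ) : ℝ :=
  ∑ k ∈ Finset.range K, cB k * κ ^ k * (sin θ ^ n * cos θ ^ (n + 2 * k))

lemma SS_eq (n K : ℕ) (κ θ : ℝ) :
    SS n K κ θ = (sin θ * cos θ) ^ n * ∑ k ∈ Finset.range K, cB k * (κ * cos θ ^ 2) ^ k := by
  unfold SS
  rw [Finset.mul_sum]
  refine Finset.sum_congr rfl fun k _ => ?_
  rw [mul_pow, mul_pow, pow_add, pow_mul]
  ring

lemma continuous_SS (n K : ℕ) (κ : ℝ) : Continuous (SS n K κ) := by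
  unfold SS
  fun_prop

lemma integral_SS (n K : ℕ) (κ : ℝ) : ∫ θ in (0 : ℝ)..(π / 2), SS n K κ θ
    = ∑ k ∈ Finset.range K, cB k * WI n (n + 2 * k) * κ ^ k := by
  unfold SS
  rw [intervalIntegral.integral_finsetSum]
  · refine Finset.sum_congr rfl fun k _ => ?_
    rw [intervalIntegral.integral_const_mul]
    unfold WI
    ring
  · intro k _
    exact Continuous.intervalIntegrable (by fun_prop) _ _

/-- lower bound of the integral -/
theorem II_lower {a : ℝ} (ha : 2 ≤ a) (n : ℕ) (h : a - 1 = n) (K : ℕ) {T : ℝ}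
    (hT : T ∈ Icc (0 : ℝ) 1) :
    ∑ k ∈ Finset.range K, cB k * WI n (n + 2 * k) * (1 - T ^ 2) ^ k ≤ II a T := by
  rw [← integral_SS]
  unfold II
  have hpi := pi_pos
  have hn : n ≠ 0 := by
    rintro rfl
    simp at h
    linarith
  have hk0 : 0 ≤ 1 - T ^ 2 := by nlinarith [hT.1, hT.2]
  refine intervalIntegral.integral_mono_on (by positivity)
    ((continuous_SS n K _).intervalIntegrable _ _) (intQ ha T) fun θ hθ => ?_
  rw [SS_eq, wt_nat n h, Q_eq]
  obtain ⟨hs, hc⟩ := sc_nonneg hθ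
  rcases eq_or_lt_of_le hs with h0 | h0
  · rw [← h0]
    simp [hn]
  · refine mul_le_mul_of_nonneg_left (cB_lower (by positivity) ?_ K) (by positivity)
    have h1 := sin_sq_add_cos_sq θ
    have h2 : 0 < sin θ ^ 2 := by positivity
    have h3 : 0 ≤ T ^ 2 * cos θ ^ 2 := by positivity
    nlinarith

/-- upper bound of the integral -/
theorem II_upper {a : ℝ} (ha : 2 ≤ a) (n : ℕ) (h : a - 1 = n) (K : ℕ) {T : ℝ}
    (hT : T ∈ Icc (0 : ℝ) 1) :
    II a T ≤ ∑ k ∈ Finset.range K, cB k * WI n (n + 2 * k) * (1 - T ^ 2) ^ k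
      + (1 - T ^ 2) ^ K * (II a 0 - ∑ k ∈ Finset.range K, cB k * WI n (n + 2 * k)) := by
  have hpi := pi_pos
  have hn : n ≠ 0 := by
    rintro rfl
    simp at h
    linarith
  have hk0 : 0 ≤ 1 - T ^ 2 := by nlinarith [hT.1, hT.2]
  have hk1 : 1 - T ^ 2 ≤ 1 := by nlinarith [hT.1, hT.2]
  have i1 : IntervalIntegrable (SS n K (1 - T ^ 2)) volume 0 (π / 2) :=
    (continuous_SS n K _).intervalIntegrable _ _
  have i2 : IntervalIntegrable (SS n K 1) volume 0 (π / 2) :=
    (continuous_SS n K _).intervalIntegrable _ _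
  have e1 : ∑ k ∈ Finset.range K, cB k * WI n (n + 2 * k)
      = ∫ θ in (0 : ℝ)..(π / 2), SS n K 1 θ := by
    rw [integral_SS]
    simp
  rw [e1, ← integral_SS]
  unfold II
  rw [← intervalIntegral.integral_sub (intQ ha 0) i2, ← intervalIntegral.integral_const_mul,
    ← intervalIntegral.integral_add i1 (((intQ ha 0).sub i2).const_mul _)]
  refine intervalIntegral.integral_mono_on (by positivity) (intQ ha T)
    (i1.add (((intQ ha 0).sub i2).const_mul _)) fun θ hθ => ?_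
  rw [SS_eq, SS_eq, wt_nat n h, Q_eq, Q_eq]
  obtain ⟨hs, hc⟩ := sc_nonneg hθ
  rcases eq_or_lt_of_le hs with h0 | h0
  · rw [← h0]
    simp [hn]
  · have h1 := sin_sq_add_cos_sq θ
    have h2 : 0 < sin θ ^ 2 := by positivity
    have key := cB_upper (x := cos θ ^ 2) (by positivity) (by nlinarith) hk0 hk1 K
    have h4 : 0 ≤ (sin θ * cos θ) ^ n := by positivity
    have h5 := mul_le_mul_of_nonneg_left key h4
    simp only [ne_eq, OfNat.ofNat_ne_zero, not_false_eq_true, zero_pow, sub_zero, one_mul]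
    linarith

/-- the coefficients of the series -/
noncomputable def be (n k : ℕ) : ℝ := cB k * WI n (n + 2 * k)

lemma be_succ (n k : ℕ) : be n (k + 1) * ((2 * k + 2) * (2 * n + 2 * k + 2))
    = be n k * ((2 * k + 1) * (n + 2 * k + 1)) := by
  have h := WI_rec2 n (n + 2 * k)
  unfold be
  rw [cB_succ, show n + 2 * (k + 1) = n + 2 * k + 2 by ring]
  push_cast at h ⊢
  have h2 : (2 * (k : ℝ) + 2) ≠ 0 := by positivity
  have e1 : cB k * ((2 * k + 1) / (2 * k + 2)) * WI n (n + 2 * k + 2)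
      * ((2 * k + 2) * (2 * n + 2 * k + 2))
      = cB k * (2 * k + 1) * ((n + (n + 2 * k) + 2) * WI n (n + 2 * k + 2)) := by
    field_simp
    ring
  rw [e1, h]
  ring

/-- the sum of the entries -/
def sumL : List ℤ → ℤ
  | [] => 0
  | a :: l => a + sumL l

/-- the entries are lower bounds -/
def okLo (n : ℕ) : ℕ → ℤ → List ℤ → Bool
  | _, _, [] => true
  | k, q, q' :: l => decide (q' * ((2 * k + 2) * (2 * n + 2 * k + 2))
      ≤ q * ((2 * k + 1) * (n + 2 * k + 1))) && okLo n (k + 1) q' l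

/-- the entries are upper bounds -/
def okUp (n : ℕ) : ℕ → ℤ → List ℤ → Bool
  | _, _, [] => true
  | k, q, q' :: l => decide (q * ((2 * k + 1) * (n + 2 * k + 1))
      ≤ q' * ((2 * k + 2) * (2 * n + 2 * k + 2))) && okUp n (k + 1) q' l

lemma okLo_spec (n : ℕ) {M : ℝ} : ∀ (l : List ℤ) (k : ℕ) (q : ℤ), (q : ℝ) ≤ M * be n k →
    okLo n k q l = true → ∀ i < l.length + 1, (((q :: l).getD i 0 : ℤ) : ℝ) ≤ M * be n (k + i)
  | [], k, q, h0, _, i, hi => by
    have : i = 0 := by simpa using hi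
    subst this
    simpa using h0
  | q' :: l, k, q, h0, h, i, hi => by
    have h1 : (decide (q' * ((2 * (k : ℤ) + 2) * (2 * n + 2 * k + 2))
      ≤ q * ((2 * k + 1) * (n + 2 * k + 1))) && okLo n (k + 1) q' l) = true := h
    rw [Bool.and_eq_true, decide_eq_true_eq] at h1
    rcases i with _ | i
    · simpa using h0
    · have h2 : (q' : ℝ) ≤ M * be n (k + 1) := by
        have h3 : ((q' * ((2 * (k : ℤ) + 2) * (2 * n + 2 * k + 2)) : ℤ) : ℝ)
          ≤ ((q * ((2 * k + 1) * (n + 2 * k + 1)) : ℤ) : ℝ) := by exact_mod_cast h1.1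
        push_cast at h3
        have h4 := be_succ n k
        have h5 : (q : ℝ) * ((2 * k + 1) * (n + 2 * k + 1))
          ≤ M * be n k * ((2 * k + 1) * (n + 2 * k + 1)) :=
          mul_le_mul_of_nonneg_right h0 (by positivity)
        have h6 : (0 : ℝ) < (2 * k + 2) * (2 * n + 2 * k + 2) := by positivity
        refine le_of_mul_le_mul_right ?_ h6
        calc (q' : ℝ) * ((2 * k + 2) * (2 * n + 2 * k + 2)) ≤ _ := h3
          _ ≤ _ := h5
          _ = M * (be n k * ((2 * k + 1) * (n + 2 * k + 1))) := by ring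
          _ = M * be n (k + 1) * ((2 * k + 2) * (2 * n + 2 * k + 2)) := by rw [← h4]; ring
      have h7 := okLo_spec n l (k + 1) q' h2 h1.2 i (by simpa using hi)
      rw [show k + (i + 1) = k + 1 + i by ring]
      simpa using h7

lemma okUp_spec (n : ℕ) {M : ℝ} : ∀ (l : List ℤ) (k : ℕ) (q : ℤ), M * be n k ≤ (q : ℝ) →
    okUp n k q l = true → ∀ i < l.length + 1, M * be n (k + i) ≤ (((q :: l).getD i 0 : ℤ) : ℝ)
  | [], k, q, h0, _, i, hi => by
    have : i = 0 := by simpa using hi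
    subst this
    simpa using h0
  | q' :: l, k, q, h0, h, i, hi => by
    have h1 : (decide (q * ((2 * (k : ℤ) + 1) * (n + 2 * k + 1))
      ≤ q' * ((2 * k + 2) * (2 * n + 2 * k + 2))) && okUp n (k + 1) q' l) = true := h
    rw [Bool.and_eq_true, decide_eq_true_eq] at h1
    rcases i with _ | i
    · simpa using h0
    · have h2 : M * be n (k + 1) ≤ (q' : ℝ) := by
        have h3 : ((q * ((2 * (k : ℤ) + 1) * (n + 2 * k + 1)) : ℤ) : ℝ)
          ≤ ((q' * ((2 * k + 2) * (2 * n + 2 * k + 2)) : ℤ) : ℝ) := by exact_mod_cast h1.1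
        push_cast at h3
        have h4 := be_succ n k
        have h5 : M * be n k * ((2 * k + 1) * (n + 2 * k + 1))
          ≤ (q : ℝ) * ((2 * k + 1) * (n + 2 * k + 1)) :=
          mul_le_mul_of_nonneg_right h0 (by positivity)
        have h6 : (0 : ℝ) < (2 * k + 2) * (2 * n + 2 * k + 2) := by positivity
        refine le_of_mul_le_mul_right ?_ h6
        calc M * be n (k + 1) * ((2 * k + 2) * (2 * n + 2 * k + 2))
            = M * (be n k * ((2 * k + 1) * (n + 2 * k + 1))) := by rw [← h4]; ring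
          _ = M * be n k * ((2 * k + 1) * (n + 2 * k + 1)) := by ring
          _ ≤ _ := h5
          _ ≤ _ := h3
      have h7 := okUp_spec n l (k + 1) q' h2 h1.2 i (by simpa using hi)
      rw [show k + (i + 1) = k + 1 + i by ring]
      simpa using h7

lemma pv_eq_sum (x : ℝ) : ∀ l : List ℤ,
    pv l x = ∑ i ∈ Finset.range l.length, ((l.getD i 0 : ℤ) : ℝ) * x ^ i
  | [] => by simp [pv]
  | a :: l => by
    rw [List.length_cons, Finset.sum_range_succ']
    simp only [List.getD_cons_succ, List.getD_cons_zero, pow_zero, mul_one, pow_succ]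
    change (a : ℝ) + x * pv l x = _
    rw [pv_eq_sum x l, Finset.mul_sum, add_comm]
    congr 1
    refine Finset.sum_congr rfl fun i _ => ?_
    ring

/-- lower bound of the integral by a list -/
theorem II_lowerL {a : ℝ} (ha : 2 ≤ a) (n : ℕ) (h : a - 1 = n) {M : ℝ} (q : ℤ) (l : List ℤ)
    (h0 : (q : ℝ) ≤ M * WI n n) (hok : okLo n 0 q l = true) (hM : 0 ≤ M) {T : ℝ}
    (hT : T ∈ Icc (0 : ℝ) 1) : pv (q :: l) (1 - T ^ 2) ≤ M * II a T := by
  have hb : be n 0 = WI n n := by simp [be, cB]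
  have hk0 : 0 ≤ 1 - T ^ 2 := by nlinarith [hT.1, hT.2]
  have key := okLo_spec n l 0 q (by rwa [hb]) hok
  refine le_trans ?_ (mul_le_mul_of_nonneg_left (II_lower ha n h (l.length + 1) hT) hM)
  rw [pv_eq_sum, Finset.mul_sum, List.length_cons]
  refine Finset.sum_le_sum fun i hi => ?_
  have h1 := key i (Finset.mem_range.1 hi)
  rw [zero_add] at h1
  rw [← mul_assoc]
  exact mul_le_mul_of_nonneg_right h1 (pow_nonneg hk0 i)

/-- upper bound of the integral by a list -/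
theorem II_upperL {a : ℝ} (ha : 2 ≤ a) (n : ℕ) (h : a - 1 = n) {M : ℝ} (q : ℤ) (l : List ℤ)
    (h0 : M * WI n n ≤ (q : ℝ)) (hok : okUp n 0 q l = true) (hM : 0 ≤ M) {J : ℤ}
    (hJ : M * II a 0 ≤ J) {T : ℝ} (hT : T ∈ Icc (0 : ℝ) 1) :
    M * II a T ≤ pv ((q :: l) ++ [J - sumL (q :: l)]) (1 - T ^ 2) := by
  have hb : be n 0 = WI n n := by simp [be, cB]
  have hk0 : 0 ≤ 1 - T ^ 2 := by nlinarith [hT.1, hT.2]
  have hk1 : 1 - T ^ 2 ≤ 1 := by nlinarith [hT.1, hT.2]
  have key := okUp_spec n l 0 q (by rwa [hb]) hok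
  have hup := mul_le_mul_of_nonneg_left (II_upper ha n h (l.length + 1) hT) hM
  have e1 : ∀ (x : ℝ) (m : List ℤ) (b : ℤ), pv (m ++ [b]) x = pv m x + x ^ m.length * b := by
    intro x m b
    induction m with
    | nil => simp [pv]
    | cons c m ih =>
      change (c : ℝ) + x * pv (m ++ [b]) x = c + x * pv m x + x ^ (m.length + 1) * b
      rw [ih]
      ring
  have e2 : ((sumL (q :: l) : ℤ) : ℝ)
      = ∑ i ∈ Finset.range (l.length + 1), (((q :: l).getD i 0 : ℤ) : ℝ) := by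
    have : ∀ m : List ℤ, ((sumL m : ℤ) : ℝ)
        = ∑ i ∈ Finset.range m.length, ((m.getD i 0 : ℤ) : ℝ) := by
      intro m
      induction m with
      | nil => simp [sumL]
      | cons c m ih =>
        rw [List.length_cons, Finset.sum_range_succ']
        simp only [List.getD_cons_succ, List.getD_cons_zero]
        change ((c + sumL m : ℤ) : ℝ) = _
        push_cast
        rw [ih, add_comm]
    exact this (q :: l)
  rw [e1, pv_eq_sum]
  push_cast
  rw [e2, List.length_cons]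
  refine hup.trans ?_
  have e3 : ∑ i ∈ Finset.range (l.length + 1), M * be n i * ((1 - T ^ 2) ^ i
      - (1 - T ^ 2) ^ (l.length + 1)) ≤ ∑ i ∈ Finset.range (l.length + 1),
        (((q :: l).getD i 0 : ℤ) : ℝ) * ((1 - T ^ 2) ^ i - (1 - T ^ 2) ^ (l.length + 1)) := by
    refine Finset.sum_le_sum fun i hi => ?_
    have h1 := key i (Finset.mem_range.1 hi)
    rw [zero_add] at h1
    exact mul_le_mul_of_nonneg_right h1 (sub_nonneg.2
      (pow_le_pow_of_le_one hk0 hk1 (Finset.mem_range.1 hi).le))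
  simp only [mul_sub, Finset.sum_sub_distrib, ← Finset.sum_mul] at e3
  have e4 : ∑ i ∈ Finset.range (l.length + 1), M * be n i * (1 - T ^ 2) ^ i
      = M * ∑ k ∈ Finset.range (l.length + 1), cB k * WI n (n + 2 * k) * (1 - T ^ 2) ^ k := by
    rw [Finset.mul_sum]
    refine Finset.sum_congr rfl fun i _ => ?_
    unfold be
    ring
  have e5 : ∑ i ∈ Finset.range (l.length + 1), M * be n i
      = M * ∑ k ∈ Finset.range (l.length + 1), cB k * WI n (n + 2 * k) := by
    rw [Finset.mul_sum]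
    rfl
  rw [e4, e5] at e3
  have e6 := mul_le_mul_of_nonneg_left hJ (pow_nonneg hk0 (l.length + 1))
  linarith

/-- the sum of two polynomials -/
def addP : List ℤ → List ℤ → List ℤ
  | [], w => w
  | a :: l, [] => a :: l
  | a :: l, b :: w => (a + b) :: addP l w

/-- a multiple of a polynomial -/
def smP (c : ℤ) : List ℤ → List ℤ
  | [] => []
  | a :: l => (c * a) :: smP c l

/-- multiplication by `1 - T ^ 2` -/
def mulK (l : List ℤ) : List ℤ := addP l (smP (-1) (0 :: 0 :: l))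

/-- the polynomial in `1 - T ^ 2` as a polynomial in `T` -/
def compK : List ℤ → List ℤ
  | [] => []
  | a :: l => addP [a] (mulK (compK l))

/-- multiplication by `(1 + T) ^ n` -/
def mul1 : ℕ → List ℤ → List ℤ
  | 0, l => l
  | n + 1, l => addP (mul1 n l) (0 :: mul1 n l)

lemma pv_addP (x : ℝ) : ∀ l w : List ℤ, pv (addP l w) x = pv l x + pv w x
  | [], w => by simp [addP, pv]
  | a :: l, [] => by simp [addP, pv]
  | a :: l, b :: w => by
    change ((a + b : ℤ) : ℝ) + x * pv (addP l w) x = a + x * pv l x + (b + x * pv w x)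
    rw [pv_addP x l w]
    push_cast
    ring

lemma pv_smP (c : ℤ) (x : ℝ) : ∀ l : List ℤ, pv (smP c l) x = c * pv l x
  | [] => by simp [smP, pv]
  | a :: l => by
    change ((c * a : ℤ) : ℝ) + x * pv (smP c l) x = c * (a + x * pv l x)
    rw [pv_smP c x l]
    push_cast
    ring

lemma pv_mulK (x : ℝ) (l : List ℤ) : pv (mulK l) x = (1 - x ^ 2) * pv l x := by
  unfold mulK
  rw [pv_addP, pv_smP]
  change pv l x + ((-1 : ℤ) : ℝ) * (((0 : ℤ) : ℝ) + x * (((0 : ℤ) : ℝ) + x * pv l x)) = _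
  push_cast
  ring

lemma pv_compK (x : ℝ) : ∀ l : List ℤ, pv (compK l) x = pv l (1 - x ^ 2)
  | [] => rfl
  | a :: l => by
    change pv (addP [a] (mulK (compK l))) x = a + (1 - x ^ 2) * pv l (1 - x ^ 2)
    rw [pv_addP, pv_mulK, pv_compK x l]
    simp [pv]

lemma pv_mul1 (x : ℝ) (l : List ℤ) : ∀ n : ℕ, pv (mul1 n l) x = (1 + x) ^ n * pv l x
  | 0 => by simp [mul1]
  | n + 1 => by
    change pv (addP (mul1 n l) (0 :: mul1 n l)) x = _
    rw [pv_addP]
    change pv (mul1 n l) x + (((0 : ℤ) : ℝ) + x * pv (mul1 n l) x) = _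
    rw [pv_mul1 x l n]
    push_cast
    ring

lemma yF_nat {a : ℝ} (n : ℕ) (h : a - 1 = n) (c : ℝ) (T : ℝ) :
    yF a c T = (1 - T) ^ n * ((1 + T) ^ n * (c * II a T)) := by
  unfold yF
  rw [h, rpow_natCast, show (1 : ℝ) - T ^ 2 = (1 - T) * (1 + T) by ring, mul_pow, mul_assoc]

/-- lower bound of `y` from the check of the lists -/
theorem yF_low {a : ℝ} (ha : 2 ≤ a) (n : ℕ) (h : a - 1 = n) (M cn cd Db q : ℤ) (l P : List ℤ)
    (hM : 0 < M) (hcd : 0 < cd) (hDb : 0 < Db) (hcn : 0 ≤ cn) (h0 : (q : ℝ) ≤ M * WI n n)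
    (hok : okLo n 0 q l = true) {N : ℕ} (hN : 0 < N)
    (hc : Pv1.chk1 N (addP (smP (Db * cn) (mul1 n (compK (q :: l)))) (smP (-(cd * M)) P)) = true)
    {T : ℝ} (hT : T ∈ Icc (0 : ℝ) 1) :
    (1 - T) ^ n * (pv P T / Db) ≤ yF a (cn / cd) T := by
  have hM' : (0 : ℝ) < M := by exact_mod_cast hM
  have hcd' : (0 : ℝ) < cd := by exact_mod_cast hcd
  have hDb' : (0 : ℝ) < Db := by exact_mod_cast hDb
  have hcn' : (0 : ℝ) ≤ cn := by exact_mod_cast hcn
  have h1 := Pv1.pv_nonneg hN hc hT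
  rw [pv_addP, pv_smP, pv_smP, pv_mul1, pv_compK] at h1
  push_cast at h1
  have h2 := II_lowerL ha n h q l h0 hok hM'.le hT
  have h3 : 0 ≤ (1 + T) ^ n := pow_nonneg (by linarith [hT.1]) n
  rw [yF_nat n h]
  refine mul_le_mul_of_nonneg_left ?_ (pow_nonneg (by linarith [hT.2]) n)
  have h4 : (Db : ℝ) * cn * ((1 + T) ^ n * pv (q :: l) (1 - T ^ 2))
      ≤ Db * cn * ((1 + T) ^ n * (M * II a T)) :=
    mul_le_mul_of_nonneg_left (mul_le_mul_of_nonneg_left h2 h3) (by positivity)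
  rw [div_le_iff₀ hDb']
  have h5 : (cd : ℝ) * M * pv P T ≤ cd * M * ((1 + T) ^ n * (cn / cd * II a T) * Db) := by
    calc (cd : ℝ) * M * pv P T ≤ Db * cn * ((1 + T) ^ n * (M * II a T)) := by linarith
      _ = _ := by field_simp
  exact le_of_mul_le_mul_left h5 (by positivity)

/-- upper bound of `y` from the check of the lists -/
theorem yF_up {a : ℝ} (ha : 2 ≤ a) (n : ℕ) (h : a - 1 = n) (M cn cd Db q J : ℤ) (l P : List ℤ)
    (hM : 0 < M) (hcd : 0 < cd) (hDb : 0 < Db) (hcn : 0 ≤ cn) (h0 : M * WI n n ≤ (q : ℝ))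
    (hok : okUp n 0 q l = true) (hJ : M * II a 0 ≤ (J : ℝ)) {N : ℕ} (hN : 0 < N)
    (hc : Pv1.chk1 N (addP (smP (cd * M) P) (smP (-(Db * cn))
      (mul1 n (compK ((q :: l) ++ [J - sumL (q :: l)]))))) = true)
    {T : ℝ} (hT : T ∈ Icc (0 : ℝ) 1) :
    yF a (cn / cd) T ≤ (1 - T) ^ n * (pv P T / Db) := by
  have hM' : (0 : ℝ) < M := by exact_mod_cast hM
  have hcd' : (0 : ℝ) < cd := by exact_mod_cast hcd
  have hDb' : (0 : ℝ) < Db := by exact_mod_cast hDb
  have hcn' : (0 : ℝ) ≤ cn := by exact_mod_cast hcn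
  have h1 := Pv1.pv_nonneg hN hc hT
  rw [pv_addP, pv_smP, pv_smP, pv_mul1, pv_compK] at h1
  push_cast at h1
  have h2 := II_upperL ha n h q l h0 hok hM'.le hJ hT
  have h3 : 0 ≤ (1 + T) ^ n := pow_nonneg (by linarith [hT.1]) n
  rw [yF_nat n h]
  refine mul_le_mul_of_nonneg_left ?_ (pow_nonneg (by linarith [hT.2]) n)
  have h4 : (Db : ℝ) * cn * ((1 + T) ^ n * (M * II a T))
      ≤ Db * cn * ((1 + T) ^ n * pv ((q :: l) ++ [J - sumL (q :: l)]) (1 - T ^ 2)) :=
    mul_le_mul_of_nonneg_left (mul_le_mul_of_nonneg_left h2 h3) (by positivity)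
  rw [le_div_iff₀ hDb']
  have h5 : (cd : ℝ) * M * ((1 + T) ^ n * (cn / cd * II a T) * Db) ≤ cd * M * pv P T := by
    calc (cd : ℝ) * M * ((1 + T) ^ n * (cn / cd * II a T) * Db)
        = Db * cn * ((1 + T) ^ n * (M * II a T)) := by field_simp
      _ ≤ _ := by linarith
  exact le_of_mul_le_mul_left h5 (by positivity)

lemma WI_two_two : WI 2 2 = π / 16 := by
  have h0 : WI 0 0 = π / 2 := by simp [WI]
  have h1 := WI_rec1 0 0
  have h2 := WI_rec2 2 0
  push_cast at h1 h2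
  norm_num at h1 h2
  linarith

lemma WI_four_four : WI 4 4 = 3 * π / 256 := by
  have h0 : WI 0 0 = π / 2 := by simp [WI]
  have h1 := WI_rec1 0 0
  have h2 := WI_rec1 2 0
  have h3 := WI_rec2 4 0
  have h4 := WI_rec2 4 2
  push_cast at h1 h2 h3 h4
  norm_num at h1 h2 h3 h4
  linarith

lemma II_three_zero : II 3 0 = 1 / 3 := by
  have h := II_zero_WI 1
  norm_num at h
  have h0 : WI 1 0 = 1 := by simp [WI]
  have h1 := WI_rec2 1 0
  push_cast at h1
  norm_num at h1
  rw [h]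
  linarith

lemma II_five_zero : II 5 0 = 2 / 35 := by
  have h := II_zero_WI 3
  norm_num at h
  have h0 : WI 1 0 = 1 := by simp [WI]
  have h1 := WI_rec1 1 0
  have h2 := WI_rec2 3 0
  have h3 := WI_rec2 3 2
  push_cast at h1 h2 h3
  norm_num at h1 h2 h3
  rw [h]
  linarith

end Vale.Agent.P224.SH
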